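import Mathlib

/-! P110: winding numbers of initial segments of unimodular polynomials. -/

open MeasureTheory Set Filter Topology Complex
open scoped ComplexConjugate Real

namespace Vale.Agent.P110

/-- trigonometric sum -/
noncomputable def s (a : ℕ → ℂ) (n : ℕ) (θ : ℝ) : ℂ :=
  ∑ k ∈ Finset.range n, a k * cexp (k * θ * I)

theorem s_cont (a : ℕ → ℂ) (n : ℕ) : Continuous (s a n) := by
  unfold s
  fun_prop

theorem s_deriv (a : ℕ → ℂ) (n : ℕ) (θ : ℝ) :
    HasDerivAt (s a n) (I * s (fun k => k * a k) n θ) θ := by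
  unfold s
  rw [Finset.mul_sum]
  refine HasDerivAt.fun_sum fun k _ => ?_
  have h1 : HasDerivAt (fun θ : ℝ => (k : ℂ) * θ * I) ((k : ℂ) * 1 * I) θ :=
    (((hasDerivAt_id (θ : ℂ)).const_mul (k : ℂ)).mul_const I).comp_ofReal
  have h2 := (h1.cexp).const_mul (a k)
  refine h2.congr_deriv ?_
  ring

theorem s_period (a : ℕ → ℂ) (n : ℕ) : s a n (2 * π) = s a n 0 := by
  unfold s
  refine Finset.sum_congr rfl fun k _ => ?_
  have : cexp ((k : ℂ) * ((2 * π : ℝ) : ℂ) * I) = 1 := by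
    rw [Complex.exp_eq_one_iff]
    exact ⟨k, by push_cast; ring⟩
  rw [this]
  simp

theorem s_succ (a : ℕ → ℂ) (n : ℕ) (θ : ℝ) :
    s a (n + 1) θ = s a n θ + a n * cexp (n * θ * I) := by
  unfold s
  rw [Finset.sum_range_succ]

theorem norm_e (n : ℕ) (θ : ℝ) : ‖cexp ((n : ℂ) * θ * I)‖ = 1 := by
  have := Complex.norm_exp_ofReal_mul_I ((n : ℝ) * θ)
  push_cast at this
  exact this

/-- the winding number does not change -/
theorem wind_succ {a : ℕ → ℂ} {n : ℕ} (ha : ‖a n‖ = 1) (h : ∀ θ, 1 < ‖s a n θ‖) :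
    (∫ θ in (0:ℝ)..(2 * π), s (fun k => k * a k) (n + 1) θ / s a (n + 1) θ) =
      ∫ θ in (0:ℝ)..(2 * π), s (fun k => k * a k) n θ / s a n θ := by
  have h0 : ∀ θ : ℝ, s a n θ ≠ 0 := fun θ h' => by
    have := h θ
    rw [h', norm_zero] at this
    linarith
  have hlt : ∀ θ : ℝ, ‖a n * cexp (n * θ * I) / s a n θ‖ < 1 := by
    intro θ
    rw [norm_div, norm_mul, ha, norm_e, one_mul, div_lt_one (by linarith [h θ])]
    exact h θ
  have hratio : ∀ θ : ℝ, s a (n + 1) θ / s a n θ = 1 + a n * cexp (n * θ * I) / s a n θ := by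
    intro θ
    rw [s_succ, add_div, div_self (h0 θ)]
  have hslit : ∀ θ : ℝ, s a (n + 1) θ / s a n θ ∈ slitPlane := by
    intro θ
    rw [hratio]
    exact Complex.mem_slitPlane_of_norm_lt_one (hlt θ)
  have h1 : ∀ θ : ℝ, s a (n + 1) θ ≠ 0 := fun θ h' => by
    have := hslit θ
    rw [h', zero_div] at this
    exact absurd this (by simp)
  have hd : ∀ θ : ℝ, HasDerivAt (fun θ => Complex.log (s a (n + 1) θ / s a n θ))
      (I * (s (fun k => k * a k) (n + 1) θ / s a (n + 1) θ - s (fun k => k * a k) n θ / s a n θ))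
      θ := by
    intro θ
    have h2 := ((s_deriv a (n + 1) θ).div (s_deriv a n θ) (h0 θ)).clog_real (hslit θ)
    refine h2.congr_deriv ?_
    have := h0 θ
    have := h1 θ
    simp only [Pi.div_apply]
    field_simp
  have hc1 : Continuous fun θ => s (fun k => (k:ℂ) * a k) (n + 1) θ / s a (n + 1) θ :=
    (s_cont _ _).div (s_cont _ _) h1
  have hc0 : Continuous fun θ => s (fun k => (k:ℂ) * a k) n θ / s a n θ :=
    (s_cont _ _).div (s_cont _ _) h0
  have h3 := intervalIntegral.integral_eq_sub_of_hasDerivAt (a := 0) (b := 2 * π)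
    (fun θ _ => hd θ) ((continuous_const.mul (hc1.sub hc0)).intervalIntegrable _ _)
  rw [s_period, s_period, sub_self, intervalIntegral.integral_const_mul,
    intervalIntegral.integral_sub (hc1.intervalIntegrable _ _) (hc0.intervalIntegrable _ _)] at h3
  have h4 := (mul_eq_zero.1 h3).resolve_left I_ne_zero
  exact sub_eq_zero.1 h4

/-- orthogonality -/
theorem orth (u v : ℕ → ℂ) (n : ℕ) :
    ∫ θ in (0:ℝ)..(2 * π), s u n θ * conj (s v n θ) =
      2 * π * ∑ k ∈ Finset.range n, u k * conj (v k) := by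
  have h1 : ∀ θ : ℝ, s u n θ * conj (s v n θ) = ∑ k ∈ Finset.range n, ∑ j ∈ Finset.range n,
      u k * conj (v j) * cexp ((((k:ℂ) - j) * I) * θ) := by
    intro θ
    unfold s
    rw [map_sum, Finset.sum_mul_sum]
    refine Finset.sum_congr rfl fun k _ => Finset.sum_congr rfl fun j _ => ?_
    rw [map_mul, ← Complex.exp_conj]
    have : cexp (((k:ℂ) - j) * I * θ) = cexp (k * θ * I) * cexp (conj ((j:ℂ) * θ * I)) := by
      rw [← Complex.exp_add]
      congr 1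
      simp only [map_mul, conj_I, conj_ofReal, map_natCast]
      ring
    rw [this]
    ring
  simp only [h1]
  rw [intervalIntegral.integral_finsetSum]
  swap
  · intro k _
    exact Continuous.intervalIntegrable (by fun_prop) _ _
  rw [Finset.mul_sum]
  refine Finset.sum_congr rfl fun k hk => ?_
  rw [intervalIntegral.integral_finsetSum]
  swap
  · intro j _
    exact Continuous.intervalIntegrable (by fun_prop) _ _
  rw [Finset.sum_eq_single k]
  · simp
    ring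
  · intro j _ hjk
    rw [intervalIntegral.integral_const_mul]
    have hne : ((k:ℂ) - j) * I ≠ 0 := by
      refine mul_ne_zero ?_ I_ne_zero
      rw [sub_ne_zero]
      exact fun h => hjk (by exact_mod_cast h.symm)
    rw [integral_exp_mul_complex hne]
    have h2 : cexp (((k:ℂ) - j) * I * ((2 * π : ℝ) : ℂ)) = 1 := by
      rw [Complex.exp_eq_one_iff]
      exact ⟨(k:ℤ) - j, by push_cast; ring⟩
    rw [h2]
    simp
  · intro h
    exact absurd hk h


/-- Parseval -/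
theorem parseval (u : ℕ → ℂ) (n : ℕ) :
    ∫ θ in (0:ℝ)..(2 * π), ‖s u n θ‖ ^ 2 = 2 * π * ∑ k ∈ Finset.range n, ‖u k‖ ^ 2 := by
  have h := orth u u n
  have h1 : ∀ θ : ℝ, s u n θ * conj (s u n θ) = ((‖s u n θ‖ ^ 2 : ℝ) : ℂ) := by
    intro θ
    rw [Complex.mul_conj, Complex.normSq_eq_norm_sq]
  have h2 : ∀ k, u k * conj (u k) = ((‖u k‖ ^ 2 : ℝ) : ℂ) := by
    intro k
    rw [Complex.mul_conj, Complex.normSq_eq_norm_sq]
  simp only [h1, h2] at h
  rw [intervalIntegral.integral_ofReal] at h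
  have h3 : ((2 * π * ∑ k ∈ Finset.range n, ‖u k‖ ^ 2 : ℝ) : ℂ) =
      2 * π * ∑ k ∈ Finset.range n, ((‖u k‖ ^ 2 : ℝ) : ℂ) := by push_cast; rfl
  rw [← h3] at h
  exact_mod_cast h

theorem recip_est {x c N : ℝ} (hN : 0 < N) (hc0 : 0 ≤ c) (hc : c ≤ 1 / 8)
    (h1 : (1 - c) * Real.sqrt N ≤ x) (h2 : x ≤ (1 + c) * Real.sqrt N) :
    |1 / x ^ 2 - 1 / N| ≤ 4 * c / N := by
  have hs : 0 < Real.sqrt N := Real.sqrt_pos.2 hN
  have hx : 0 < x := lt_of_lt_of_le (mul_pos (by linarith) hs) h1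
  have hsq : Real.sqrt N ^ 2 = N := Real.sq_sqrt hN.le
  have h3 : (1 - c) ^ 2 * N ≤ x ^ 2 := by
    rw [← hsq, ← mul_pow]
    exact pow_le_pow_left₀ (mul_nonneg (by linarith) hs.le) h1 2
  have h4 : x ^ 2 ≤ (1 + c) ^ 2 * N := by
    rw [← hsq, ← mul_pow]
    exact pow_le_pow_left₀ hx.le h2 2
  have hx2 : 0 < x ^ 2 := by positivity
  have h5 : 1 / x ^ 2 - 1 / N = (N - x ^ 2) / (x ^ 2 * N) := by field_simp
  rw [h5, abs_div, abs_of_pos (mul_pos hx2 hN), div_le_div_iff₀ (mul_pos hx2 hN) hN]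
  have h6 : |N - x ^ 2| ≤ 4 * c * x ^ 2 := by
    rw [abs_le]
    constructor
    · nlinarith [mul_nonneg hc0 hN.le, mul_nonneg (mul_nonneg hc0 hc0) hN.le]
    · have : N ≤ (1 + 4 * c) * ((1 - c) ^ 2 * N) := by
        have h7 : 1 ≤ (1 + 4 * c) * (1 - c) ^ 2 := by nlinarith [mul_nonneg hc0 hc0, mul_nonneg hc0 (mul_nonneg hc0 hc0)]
        nlinarith
      nlinarith
  nlinarith

/-- the winding number of a flat segment -/
theorem wind_est {a : ℕ → ℂ} (ha : ∀ k, ‖a k‖ = 1) {n : ℕ} (hn : 0 < n) {c : ℝ} (hc0 : 0 ≤ c)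
    (hc : c ≤ 1 / 8)
    (hf : ∀ θ, (1 - c) * Real.sqrt n ≤ ‖s a n θ‖ ∧ ‖s a n θ‖ ≤ (1 + c) * Real.sqrt n) :
    ‖(∫ θ in (0:ℝ)..(2 * π), s (fun k => k * a k) n θ / s a n θ) -
      2 * π * (((n:ℂ) - 1) / 2)‖ ≤ 2 * π * (4 * c * n) := by
  have hnR : (0:ℝ) < n := by exact_mod_cast hn
  have hnC : (n:ℂ) ≠ 0 := by exact_mod_cast hn.ne'
  have hs0 : ∀ θ : ℝ, s a n θ ≠ 0 := by
    intro θ h
    have := (hf θ).1
    rw [h, norm_zero] at this
    have h2 : 0 < (1 - c) * Real.sqrt n := mul_pos (by linarith) (Real.sqrt_pos.2 hnR)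
    linarith
  set T := s (fun k => (k:ℂ) * a k) n with hT
  set S := s a n with hS
  have hTc : Continuous T := s_cont _ _
  have hSc : Continuous S := s_cont _ _
  have h1 : ∫ θ in (0:ℝ)..(2 * π), T θ * conj (S θ) = 2 * π * ((n:ℂ) * ((n:ℂ) - 1) / 2) := by
    rw [hT, hS, orth]
    congr 1
    have h2 : ∀ k ∈ Finset.range n, (k:ℂ) * a k * conj (a k) = (k:ℂ) := by
      intro k _
      rw [mul_assoc, Complex.mul_conj, Complex.normSq_eq_norm_sq, ha]
      simp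
    rw [Finset.sum_congr rfl h2]
    have h3 := Finset.sum_range_id_mul_two n
    have h4 : ((∑ i ∈ Finset.range n, i : ℕ) : ℂ) * 2 = (n:ℂ) * ((n:ℂ) - 1) := by
      rw [← Nat.cast_ofNat, ← Nat.cast_mul, h3, Nat.cast_mul, Nat.cast_sub hn, Nat.cast_one]
    push_cast at h4
    rw [← h4]
    ring
  have h2 : (∫ θ in (0:ℝ)..(2 * π), T θ / S θ) - 2 * π * (((n:ℂ) - 1) / 2) =
      ∫ θ in (0:ℝ)..(2 * π), (T θ / S θ - (1 / n : ℂ) * (T θ * conj (S θ))) := by
    have hcq : Continuous fun θ => T θ / S θ := hTc.div hSc hs0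
    have hcr : Continuous fun θ => (1 / n : ℂ) * (T θ * conj (S θ)) := by fun_prop
    rw [intervalIntegral.integral_sub (hcq.intervalIntegrable _ _)
      (hcr.intervalIntegrable _ _), intervalIntegral.integral_const_mul, h1]
    field_simp
  rw [h2]
  have h3 : ∀ θ : ℝ, ‖T θ / S θ - (1 / n : ℂ) * (T θ * conj (S θ))‖ ≤
      4 * c / n * ((‖T θ‖ ^ 2 / n + n * ‖S θ‖ ^ 2) / 2) := by
    intro θ
    have hx : 0 < ‖S θ‖ := norm_pos_iff.2 (hs0 θ)
    have h4 : T θ / S θ - (1 / n : ℂ) * (T θ * conj (S θ)) =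
        T θ * conj (S θ) * ((1 / ‖S θ‖ ^ 2 - 1 / n : ℝ) : ℂ) := by
      have h5 : S θ * conj (S θ) = ((‖S θ‖ ^ 2 : ℝ) : ℂ) := by
        rw [Complex.mul_conj, Complex.normSq_eq_norm_sq]
      have h6 : ((‖S θ‖ ^ 2 : ℝ) : ℂ) ≠ 0 := by
        exact_mod_cast (by positivity : (‖S θ‖ ^ 2 : ℝ) ≠ 0)
      have h7 : T θ / S θ = T θ * conj (S θ) / ((‖S θ‖ ^ 2 : ℝ) : ℂ) := by
        rw [← h5]
        have := hs0 θ
        have h8 : conj (S θ) ≠ 0 := by
          rw [Ne, map_eq_zero]; exact hs0 θ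
        field_simp
      rw [h7]
      push_cast
      ring
    rw [h4, norm_mul, norm_mul, RCLike.norm_conj, Complex.norm_real, Real.norm_eq_abs]
    have h9 := recip_est hnR hc0 hc (hf θ).1 (hf θ).2
    have h10 : ‖T θ‖ * ‖S θ‖ ≤ (‖T θ‖ ^ 2 / n + n * ‖S θ‖ ^ 2) / 2 := by
      have h11 : ‖T θ‖ ^ 2 / n + n * ‖S θ‖ ^ 2 - 2 * (‖T θ‖ * ‖S θ‖) =
          (‖T θ‖ - n * ‖S θ‖) ^ 2 / n := by
        field_simp
        ring
      have h12 : 0 ≤ (‖T θ‖ - n * ‖S θ‖) ^ 2 / n := by positivity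
      linarith
    calc ‖T θ‖ * ‖S θ‖ * |1 / ‖S θ‖ ^ 2 - 1 / (n:ℝ)|
        ≤ (‖T θ‖ ^ 2 / n + n * ‖S θ‖ ^ 2) / 2 * (4 * c / n) :=
          mul_le_mul h10 h9 (abs_nonneg _) (by positivity)
      _ = _ := by ring
  refine (intervalIntegral.norm_integral_le_of_norm_le (by positivity)
    (Eventually.of_forall fun θ _ => h3 θ)
    (Continuous.intervalIntegrable (by fun_prop) _ _)).trans ?_
  have h4 : ∫ θ in (0:ℝ)..(2 * π), 4 * c / n * ((‖T θ‖ ^ 2 / n + n * ‖S θ‖ ^ 2) / 2) =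
      4 * c / n * ((2 * π * (∑ k ∈ Finset.range n, ‖(k:ℂ) * a k‖ ^ 2) / n +
        n * (2 * π * ∑ k ∈ Finset.range n, ‖a k‖ ^ 2)) / 2) := by
    rw [← parseval (fun k => (k:ℂ) * a k) n, ← parseval a n, intervalIntegral.integral_const_mul,
      intervalIntegral.integral_div, intervalIntegral.integral_add
        (Continuous.intervalIntegrable (by fun_prop) _ _)
        (Continuous.intervalIntegrable (by fun_prop) _ _),
      intervalIntegral.integral_div, intervalIntegral.integral_const_mul]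
  rw [h4]
  have h5 : ∑ k ∈ Finset.range n, ‖(k:ℂ) * a k‖ ^ 2 ≤ (n:ℝ) ^ 3 := by
    have : ∀ k ∈ Finset.range n, ‖(k:ℂ) * a k‖ ^ 2 ≤ (n:ℝ) ^ 2 := by
      intro k hk
      rw [norm_mul, ha, mul_one, Complex.norm_natCast]
      exact pow_le_pow_left₀ (Nat.cast_nonneg _) (by exact_mod_cast (Finset.mem_range.1 hk).le) 2
    refine (Finset.sum_le_sum this).trans (le_of_eq ?_)
    rw [Finset.sum_const, Finset.card_range, nsmul_eq_mul]
    ring
  have h6 : ∑ k ∈ Finset.range n, ‖a k‖ ^ 2 = (n:ℝ) := by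
    simp [ha]
  rw [h6]
  have h7 : 2 * π * (∑ k ∈ Finset.range n, ‖(k:ℂ) * a k‖ ^ 2) / n ≤ 2 * π * (n:ℝ) ^ 2 := by
    rw [div_le_iff₀ hnR]
    have := mul_le_mul_of_nonneg_left h5 (by positivity : (0:ℝ) ≤ 2 * π)
    calc _ ≤ 2 * π * (n:ℝ) ^ 3 := this
      _ = _ := by ring
  calc 4 * c / n * ((2 * π * (∑ k ∈ Finset.range n, ‖(k:ℂ) * a k‖ ^ 2) / n + n * (2 * π * n)) / 2)
      ≤ 4 * c / n * ((2 * π * (n:ℝ) ^ 2 + n * (2 * π * n)) / 2) := by
        apply mul_le_mul_of_nonneg_left _ (by positivity)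
        linarith
    _ = 2 * π * (4 * c * n) := by
        field_simp
        ring

end Vale.Agent.P110
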