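import Vale.Agent.Lib.P110.Mahler

/-! P110: concatenations. -/

open MeasureTheory Set Filter Topology Complex Polynomial
open scoped ComplexConjugate Real

namespace Vale.Agent.P110

/-- a polynomial which vanishes at zero and avoids the slit on the circle does not exist -/
theorem hits_neg {p : ℂ[X]} (h0 : p.eval 0 = 0) (hp : ∀ z : ℂ, ‖z‖ = 1 → p.eval z ≠ 0) :
    ∃ z : ℂ, ‖z‖ = 1 ∧ p.eval z ∉ slitPlane := by
  by_contra hcon
  push Not at hcon
  have hp0 : p ≠ 0 := by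
    rintro rfl
    exact hp 1 (by simp) (by simp)
  have hd : ∀ θ : ℝ, HasDerivAt (fun θ : ℝ => Complex.log (p.eval (cexp (θ * I))))
      (I * (cexp (θ * I) * (derivative p).eval (cexp (θ * I)) / p.eval (cexp (θ * I)))) θ := by
    intro θ
    have h1 : HasDerivAt (fun θ : ℝ => (θ : ℂ) * I) (1 * I) θ :=
      ((hasDerivAt_id (θ : ℂ)).mul_const I).comp_ofReal
    have h2 := h1.cexp
    have h3 := (p.hasDerivAt (cexp (θ * I))).comp θ h2
    have h4 := h3.clog_real (hcon _ (Complex.norm_exp_ofReal_mul_I θ))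
    refine h4.congr_deriv ?_
    simp only [Function.comp]
    ring
  have hc : Continuous fun θ : ℝ => I * (cexp (θ * I) * (derivative p).eval (cexp (θ * I)) /
      p.eval (cexp (θ * I))) := by
    refine continuous_const.mul (Continuous.div ?_ ?_ fun θ => hp _ (Complex.norm_exp_ofReal_mul_I θ))
    · exact (by fun_prop : Continuous fun θ : ℝ => cexp (θ * I)).mul
        ((derivative p).continuous.comp (by fun_prop))
    · exact p.continuous.comp (by fun_prop)
  have h3 := intervalIntegral.integral_eq_sub_of_hasDerivAt (a := 0) (b := 2 * π)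
    (fun θ _ => hd θ) (hc.intervalIntegrable _ _)
  have h4 : cexp (((2 * π : ℝ) : ℂ) * I) = 1 := by
    rw [Complex.exp_eq_one_iff]
    exact ⟨1, by push_cast; ring⟩
  rw [intervalIntegral.integral_const_mul, arg_principle hp, h4] at h3
  simp only [ofReal_zero, zero_mul, Complex.exp_zero, sub_self] at h3
  have h5 : (0:ℂ) ∈ p.roots.filter fun w => ‖w‖ < 1 := by
    rw [Multiset.mem_filter]
    exact ⟨(mem_roots hp0).2 h0, by simp⟩
  have h6 : 0 < (p.roots.filter fun w => ‖w‖ < 1).card := Multiset.card_pos_iff_exists_mem.2 ⟨0, h5⟩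
  have h7 : (2 * (π:ℂ)) ≠ 0 := by
    exact_mod_cast (by positivity : (2 * π : ℝ) ≠ 0)
  have h8 : (((p.roots.filter fun w => ‖w‖ < 1).card : ℕ) : ℂ) ≠ 0 := by exact_mod_cast h6.ne'
  exact mul_ne_zero I_ne_zero (mul_ne_zero h7 h8) h3

/-- the conjugate reversed polynomial -/
theorem conj_P (a : ℕ → ℂ) (m : ℕ) {z : ℂ} (hz : ‖z‖ = 1) :
    conj ((P a (m + 1)).eval z) * z ^ m = (P (fun k => conj (a (m - k))) (m + 1)).eval z := by
  rw [P_eval, P_eval, map_sum, Finset.sum_mul, ← Finset.sum_range_reflect]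
  refine Finset.sum_congr rfl fun k hk => ?_
  have hk' : k ≤ m := by have := Finset.mem_range.1 hk; omega
  have e1 : m + 1 - 1 - k = m - k := by omega
  rw [e1, map_mul, map_pow]
  have h1 : conj z * z = 1 := by
    rw [mul_comm, Complex.mul_conj, Complex.normSq_eq_norm_sq, hz]
    simp
  have h2 : z ^ m = z ^ (m - k) * z ^ k := by
    rw [← pow_add, Nat.sub_add_cancel hk']
  rw [h2]
  calc conj (a (m - k)) * conj z ^ (m - k) * (z ^ (m - k) * z ^ k)
      = conj (a (m - k)) * (conj z * z) ^ (m - k) * z ^ k := by rw [mul_pow]; ring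
    _ = conj (a (m - k)) * z ^ k := by rw [h1, one_pow, mul_one]

theorem P_split (a : ℕ → ℂ) (m n : ℕ) (z : ℂ) :
    (P a (m + n)).eval z = (P a m).eval z + z ^ m * (P (fun k => a (m + k)) n).eval z := by
  simp only [P_eval]
  rw [Finset.sum_range_add, Finset.mul_sum]
  congr 1
  refine Finset.sum_congr rfl fun k _ => ?_
  rw [pow_add]
  ring

theorem opp {u v : ℂ} (h : conj u * v ∉ slitPlane) : ‖u + v‖ = |‖u‖ - ‖v‖| := by
  rw [mem_slitPlane_iff] at h
  push Not at h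
  obtain ⟨h1, h2⟩ := h
  have h3 : |(conj u * v).re| = ‖u‖ * ‖v‖ := by
    rw [Complex.abs_re_eq_norm.2 h2, norm_mul, RCLike.norm_conj]
  rw [abs_of_nonpos h1] at h3
  have h4 : ‖u + v‖ ^ 2 = (‖u‖ - ‖v‖) ^ 2 := by
    rw [← normSq_eq_norm_sq, normSq_add, normSq_eq_norm_sq, normSq_eq_norm_sq]
    have h5 : (u * conj v).re = (conj u * v).re := by simp [mul_re]
    rw [h5]
    nlinarith
  rw [← abs_norm (u + v)]
  exact (sq_eq_sq_iff_abs_eq_abs _ _).1 h4

theorem ali {u v : ℂ} (h : -(conj u * v) ∉ slitPlane) : ‖u + v‖ = ‖u‖ + ‖v‖ := by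
  rw [mem_slitPlane_iff] at h
  push Not at h
  obtain ⟨h1, h2⟩ := h
  rw [neg_re] at h1
  rw [neg_im, neg_eq_zero] at h2
  have h3 : |(conj u * v).re| = ‖u‖ * ‖v‖ := by
    rw [Complex.abs_re_eq_norm.2 h2, norm_mul, RCLike.norm_conj]
  rw [abs_of_nonneg (by linarith)] at h3
  have h4 : ‖u + v‖ ^ 2 = (‖u‖ + ‖v‖) ^ 2 := by
    rw [← normSq_eq_norm_sq, normSq_add, normSq_eq_norm_sq, normSq_eq_norm_sq]
    have h5 : (u * conj v).re = (conj u * v).re := by simp [mul_re]
    rw [h5]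
    nlinarith
  exact (sq_eq_sq₀ (norm_nonneg _) (by positivity)).1 h4

/-- if both parts of a concatenation have no zero on the circle, their phases align somewhere and
oppose somewhere -/
theorem concat (a : ℕ → ℂ) (m n : ℕ) (hm : 0 < m)
    (hA : ∀ z : ℂ, ‖z‖ = 1 → (P a m).eval z ≠ 0)
    (hB : ∀ z : ℂ, ‖z‖ = 1 → (P (fun k => a (m + k)) n).eval z ≠ 0) :
    (∃ z : ℂ, ‖z‖ = 1 ∧ ‖(P a (m + n)).eval z‖ =
      ‖(P a m).eval z‖ + ‖(P (fun k => a (m + k)) n).eval z‖) ∧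
    ∃ z : ℂ, ‖z‖ = 1 ∧ ‖(P a (m + n)).eval z‖ =
      |‖(P a m).eval z‖ - ‖(P (fun k => a (m + k)) n).eval z‖| := by
  obtain ⟨m, rfl⟩ : ∃ k, m = k + 1 := ⟨m - 1, by omega⟩
  set B := P (fun k => a (m + 1 + k)) n with hBdef
  set A' := P (fun k => conj (a (m - k))) (m + 1) with hA'
  -- the product
  have hF : ∀ z : ℂ, ‖z‖ = 1 → (X * A' * B).eval z =
      conj ((P a (m + 1)).eval z) * (z ^ (m + 1) * B.eval z) := by
    intro z hz
    rw [eval_mul, eval_mul, eval_X, hA', ← conj_P a m hz]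
    ring
  have hF0 : ∀ z : ℂ, ‖z‖ = 1 → (X * A' * B).eval z ≠ 0 := by
    intro z hz
    rw [hF z hz]
    refine mul_ne_zero ?_ (mul_ne_zero (pow_ne_zero _ ?_) (hB z hz))
    · rw [Ne, map_eq_zero]
      exact hA z hz
    · rintro rfl
      simp at hz
  have hv : ∀ z : ℂ, ‖z‖ = 1 → ‖z ^ (m + 1) * B.eval z‖ = ‖B.eval z‖ := by
    intro z hz
    rw [norm_mul, norm_pow, hz, one_pow, one_mul]
  have hX0 : (X * A' * B).eval 0 = 0 := by simp
  constructor
  · obtain ⟨z, hz, h1⟩ := hits_neg (p := -(X * A' * B)) (by rw [eval_neg, hX0, neg_zero])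
      (fun z hz => by rw [eval_neg]; exact neg_ne_zero.2 (hF0 z hz))
    refine ⟨z, hz, ?_⟩
    rw [eval_neg, hF z hz] at h1
    rw [P_split, ← hBdef, ali h1, hv z hz]
  · obtain ⟨z, hz, h1⟩ := hits_neg (p := X * A' * B) hX0 hF0
    refine ⟨z, hz, ?_⟩
    rw [hF z hz] at h1
    rw [P_split, ← hBdef, opp h1, hv z hz]

end Vale.Agent.P110
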