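import Vale.Agent.Lib.P110.Main

/-! P110: zeros in the disc, winding number, Mahler measure. -/

open MeasureTheory Set Filter Topology Complex Polynomial
open scoped ComplexConjugate Real

namespace Vale.Agent.P110

theorem int_inside {w : ℂ} (hw : ‖w‖ < 1) :
    ∫ θ in (0:ℝ)..(2 * π), cexp (θ * I) / (cexp (θ * I) - w) = 2 * π := by
  have h := circleIntegral.integral_sub_inv_of_mem_ball (c := 0) (w := w) (R := 1) (by simpa using hw)
  rw [circleIntegral] at h
  have h1 : ∀ θ : ℝ, deriv (circleMap 0 1) θ • (circleMap 0 1 θ - w)⁻¹ =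
      I * (cexp (θ * I) / (cexp (θ * I) - w)) := by
    intro θ
    rw [deriv_circleMap]
    simp only [circleMap, zero_add, ofReal_one, one_mul, smul_eq_mul]
    ring
  simp only [h1] at h
  rw [intervalIntegral.integral_const_mul] at h
  have h2 : I * (∫ θ in (0:ℝ)..(2 * π), cexp (θ * I) / (cexp (θ * I) - w)) = I * (2 * π) := by
    rw [h]; ring
  exact mul_left_cancel₀ I_ne_zero h2

theorem int_outside {w : ℂ} (hw : 1 < ‖w‖) :
    ∫ θ in (0:ℝ)..(2 * π), cexp (θ * I) / (cexp (θ * I) - w) = 0 := by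
  have hne : ∀ z : ℂ, ‖z‖ ≤ 1 → z - w ≠ 0 := by
    intro z hz h
    rw [sub_eq_zero.1 h] at hz
    linarith
  have h := circleIntegral_eq_zero_of_differentiable_on_off_countable (R := 1) (c := 0)
    zero_le_one countable_empty (f := fun z => (z - w)⁻¹)
    (by
      refine ContinuousOn.inv₀ (by fun_prop) ?_
      intro z hz
      exact hne z (by simpa using hz))
    (by
      intro z hz
      refine (DifferentiableAt.sub_const differentiableAt_id w).inv ?_
      have : ‖z‖ < 1 := by simpa using hz.1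
      exact hne z this.le)
  rw [circleIntegral] at h
  have h1 : ∀ θ : ℝ, deriv (circleMap 0 1) θ • (circleMap 0 1 θ - w)⁻¹ =
      I * (cexp (θ * I) / (cexp (θ * I) - w)) := by
    intro θ
    rw [deriv_circleMap]
    simp only [circleMap, zero_add, ofReal_one, one_mul, smul_eq_mul]
    ring
  simp only [h1] at h
  rw [intervalIntegral.integral_const_mul] at h
  exact (mul_eq_zero.1 h).resolve_left I_ne_zero

/-- the argument principle for polynomials -/
theorem arg_principle {p : ℂ[X]} (hp : ∀ z : ℂ, ‖z‖ = 1 → p.eval z ≠ 0) :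
    ∫ θ in (0:ℝ)..(2 * π), cexp (θ * I) * (derivative p).eval (cexp (θ * I)) /
      p.eval (cexp (θ * I)) = 2 * π * (p.roots.filter fun w => ‖w‖ < 1).card := by
  have hp0 : p ≠ 0 := by
    rintro rfl
    exact hp 1 (by simp) (by simp)
  have hroots : ∀ w ∈ p.roots, ‖w‖ ≠ 1 := by
    intro w hw h
    exact hp w h ((mem_roots hp0).1 hw)
  have h1 : ∀ θ : ℝ, cexp (θ * I) * (derivative p).eval (cexp (θ * I)) / p.eval (cexp (θ * I)) =
      (p.roots.map fun w => cexp (θ * I) / (cexp (θ * I) - w)).sum := by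
    intro θ
    rw [mul_div_assoc, (IsAlgClosed.splits p).eval_derivative_div_eval_of_ne_zero
      (hp _ (Complex.norm_exp_ofReal_mul_I θ)), ← Multiset.sum_map_mul_left]
    congr 1
    refine Multiset.map_congr rfl fun w _ => ?_
    rw [mul_one_div]
  simp only [h1]
  have h2 : ∀ R : Multiset ℂ, (∀ w ∈ R, ‖w‖ ≠ 1) →
      IntervalIntegrable (fun θ : ℝ => (R.map fun w => cexp (θ * I) / (cexp (θ * I) - w)).sum)
        volume 0 (2 * π) ∧
      ∫ θ in (0:ℝ)..(2 * π), (R.map fun w => cexp (θ * I) / (cexp (θ * I) - w)).sum =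
        2 * π * (R.filter fun w => ‖w‖ < 1).card := by
    intro R
    induction R using Multiset.induction_on with
    | empty => intro _; simp
    | cons w R ih =>
      intro hR
      obtain ⟨i1, i2⟩ := ih fun v hv => hR v (Multiset.mem_cons_of_mem hv)
      have hw : ‖w‖ ≠ 1 := hR w (Multiset.mem_cons_self _ _)
      have hc : Continuous fun θ : ℝ => cexp (θ * I) / (cexp (θ * I) - w) := by
        refine Continuous.div (by fun_prop) (by fun_prop) fun θ h => ?_
        have h3 := Complex.norm_exp_ofReal_mul_I θ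
        rw [sub_eq_zero.1 h] at h3
        exact hw h3
      simp only [Multiset.map_cons, Multiset.sum_cons]
      refine ⟨(hc.intervalIntegrable _ _).add i1, ?_⟩
      rw [intervalIntegral.integral_add (hc.intervalIntegrable _ _) i1, i2]
      by_cases hlt : ‖w‖ < 1
      · rw [int_inside hlt, Multiset.filter_cons_of_pos (p := fun w : ℂ => ‖w‖ < 1) _ hlt, Multiset.card_cons]
        push_cast
        ring
      · rw [int_outside (lt_of_le_of_ne (not_lt.1 hlt) (Ne.symm hw)),
          Multiset.filter_cons_of_neg (p := fun w : ℂ => ‖w‖ < 1) _ hlt]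
        ring
  exact (h2 p.roots hroots).2


/-- the polynomial of an initial segment -/
noncomputable def P (a : ℕ → ℂ) (n : ℕ) : ℂ[X] := ∑ k ∈ Finset.range n, C (a k) * X ^ k

theorem P_eval (a : ℕ → ℂ) (n : ℕ) (z : ℂ) :
    (P a n).eval z = ∑ k ∈ Finset.range n, a k * z ^ k := by
  unfold P
  rw [eval_finsetSum]
  simp

theorem P_exp (a : ℕ → ℂ) (n : ℕ) (θ : ℝ) : (P a n).eval (cexp (θ * I)) = s a n θ := by
  rw [P_eval]
  unfold s
  refine Finset.sum_congr rfl fun k _ => ?_
  rw [← Complex.exp_nat_mul]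
  congr 2
  ring

theorem P_deriv (a : ℕ → ℂ) (n : ℕ) (θ : ℝ) :
    cexp (θ * I) * (derivative (P a n)).eval (cexp (θ * I)) = s (fun k => k * a k) n θ := by
  rw [← P_exp, P_eval]
  unfold P
  rw [derivative_sum, eval_finsetSum, Finset.mul_sum]
  refine Finset.sum_congr rfl fun k _ => ?_
  rw [derivative_C_mul_X_pow, eval_mul, eval_C, eval_pow, eval_X]
  rcases k with _ | k
  · simp
  · rw [Nat.add_sub_cancel, pow_succ]
    ring

theorem root_bound {a : ℕ → ℂ} (ha : ∀ k, ‖a k‖ = 1) {n : ℕ} (hn : 0 < n) {w : ℂ}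
    (hw : (P a n).eval w = 0) : 1 / 2 ≤ ‖w‖ := by
  by_contra hcon
  push Not at hcon
  rw [P_eval] at hw
  obtain ⟨m, rfl⟩ : ∃ m, n = m + 1 := ⟨n - 1, by omega⟩
  rw [Finset.sum_range_succ'] at hw
  simp only [pow_zero, mul_one] at hw
  have h1 : ‖∑ k ∈ Finset.range m, a (k + 1) * w ^ (k + 1)‖ = 1 := by
    rw [eq_neg_of_add_eq_zero_left hw, norm_neg, ha]
  have h2 : ‖∑ k ∈ Finset.range m, a (k + 1) * w ^ (k + 1)‖ ≤
      ∑ k ∈ Finset.range m, (1 / 2 : ℝ) ^ (k + 1) := by
    refine (norm_sum_le _ _).trans (Finset.sum_le_sum fun k _ => ?_)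
    rw [norm_mul, ha, one_mul, norm_pow]
    exact pow_le_pow_left₀ (norm_nonneg _) hcon.le _
  have h3 : ∀ m : ℕ, ∑ k ∈ Finset.range m, (1 / 2 : ℝ) ^ (k + 1) = 1 - (1 / 2) ^ m := by
    intro m
    induction m with
    | zero => simp
    | succ m ih => rw [Finset.sum_range_succ, ih, pow_succ]; ring
  rw [h1, h3] at h2
  have h4 : (0:ℝ) < (1 / 2) ^ m := by positivity
  linarith

theorem prod_bound (R : Multiset ℂ) (hR : ∀ w ∈ R, 1 / 2 ≤ ‖w‖) :
    (R.map fun w => max 1 ‖w‖).prod ≤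
      (R.map fun w => ‖w‖).prod * 2 ^ (R.filter fun w => ‖w‖ < 1).card := by
  induction R using Multiset.induction_on with
  | empty => simp
  | cons w R ih =>
    have h1 := ih fun v hv => hR v (Multiset.mem_cons_of_mem hv)
    have h2 := hR w (Multiset.mem_cons_self _ _)
    have h3 : 0 ≤ (R.map fun w => max 1 ‖w‖).prod := by
      refine Multiset.prod_nonneg fun x hx => ?_
      obtain ⟨v, _, rfl⟩ := Multiset.mem_map.1 hx
      exact zero_le_one.trans (le_max_left _ _)
    simp only [Multiset.map_cons, Multiset.prod_cons]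
    by_cases hlt : ‖w‖ < 1
    · rw [Multiset.filter_cons_of_pos (p := fun w : ℂ => ‖w‖ < 1) _ hlt, Multiset.card_cons,
        max_eq_left hlt.le, pow_succ]
      calc 1 * (R.map fun w => max 1 ‖w‖).prod ≤ (‖w‖ * 2) *
            ((R.map fun w => ‖w‖).prod * 2 ^ (R.filter fun w => ‖w‖ < 1).card) :=
            mul_le_mul (by linarith) h1 h3 (by positivity)
        _ = _ := by ring
    · rw [Multiset.filter_cons_of_neg (p := fun w : ℂ => ‖w‖ < 1) _ hlt,
        max_eq_right (not_lt.1 hlt)]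
      calc ‖w‖ * (R.map fun w => max 1 ‖w‖).prod ≤ ‖w‖ *
            ((R.map fun w => ‖w‖).prod * 2 ^ (R.filter fun w => ‖w‖ < 1).card) :=
            mul_le_mul_of_nonneg_left h1 (norm_nonneg _)
        _ = _ := by ring

theorem eval_zero_norm (p : ℂ[X]) :
    ‖p.eval 0‖ = ‖p.leadingCoeff‖ * (p.roots.map fun w => ‖w‖).prod := by
  have h1 : ∀ R : Multiset ℂ, ‖((R.map fun w => (X - C w : ℂ[X])).prod).eval 0‖ =
      (R.map fun w => ‖w‖).prod := by
    intro R
    induction R using Multiset.induction_on with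
    | empty => simp
    | cons w R ih =>
      simp only [Multiset.map_cons, Multiset.prod_cons, eval_mul, norm_mul, ih]
      simp
  conv_lhs => rw [(IsAlgClosed.splits p).eq_prod_roots]
  rw [eval_mul, norm_mul, h1, eval_C]

theorem mahler_le {a : ℕ → ℂ} (ha : ∀ k, ‖a k‖ = 1) {n : ℕ} (hn : 0 < n) (hp : P a n ≠ 0) :
    (P a n).mahlerMeasure ≤ 2 ^ ((P a n).roots.filter fun w => ‖w‖ < 1).card := by
  rw [mahlerMeasure_eq_leadingCoeff_mul_prod_roots]
  have h1 := prod_bound (P a n).roots fun w hw => root_bound ha hn ((mem_roots hp).1 hw)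
  have h2 : ‖(P a n).eval 0‖ = 1 := by
    rw [P_eval]
    obtain ⟨m, rfl⟩ : ∃ m, n = m + 1 := ⟨n - 1, by omega⟩
    rw [Finset.sum_range_succ']
    simp [ha]
  rw [eval_zero_norm] at h2
  calc ‖(P a n).leadingCoeff‖ * ((P a n).roots.map fun w => max 1 ‖w‖).prod
      ≤ ‖(P a n).leadingCoeff‖ * (((P a n).roots.map fun w => ‖w‖).prod *
          2 ^ ((P a n).roots.filter fun w => ‖w‖ < 1).card) :=
        mul_le_mul_of_nonneg_left h1 (norm_nonneg _)
    _ = _ := by rw [← mul_assoc, h2, one_mul]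

theorem mahler_ge {p : ℂ[X]} {K : ℝ} (hK : 0 < K) (hp : ∀ θ : ℝ, K ≤ ‖p.eval (cexp (θ * I))‖) :
    K ≤ p.mahlerMeasure := by
  have hp0 : p ≠ 0 := by
    rintro rfl
    have := hp 0
    simp at this
    linarith
  rw [mahlerMeasure_def_of_ne_zero hp0, ← Real.log_le_iff_le_exp hK]
  have hcm : ∀ θ : ℝ, circleMap 0 1 θ = cexp (θ * I) := by
    intro θ; simp [circleMap]
  have hpos : ∀ θ : ℝ, 0 < ‖p.eval (circleMap 0 1 θ)‖ := fun θ => by
    rw [hcm]; exact hK.trans_le (hp θ)
  have hc : Continuous fun θ : ℝ => Real.log ‖p.eval (circleMap 0 1 θ)‖ :=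
    Continuous.log (by
      have := continuous_circleMap (0:ℂ) 1
      have h2 := p.continuous
      exact (h2.comp this).norm) fun θ => (hpos θ).ne'
  have h1 : ∫ _ in (0:ℝ)..(2 * π), Real.log K ≤
      ∫ θ in (0:ℝ)..(2 * π), Real.log ‖p.eval (circleMap 0 1 θ)‖ :=
    intervalIntegral.integral_mono_on (by positivity) (by simp) (hc.intervalIntegrable _ _)
      fun θ _ => Real.log_le_log hK (by rw [hcm]; exact hp θ)
  rw [intervalIntegral.integral_const, smul_eq_mul, sub_zero] at h1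
  have h2 : (2 * π)⁻¹ * (2 * π * Real.log K) ≤
      (2 * π)⁻¹ * ∫ θ in (0:ℝ)..(2 * π), Real.log ‖p.eval (circleMap 0 1 θ)‖ :=
    mul_le_mul_of_nonneg_left h1 (by positivity)
  rw [← mul_assoc, inv_mul_cancel₀ (by positivity), one_mul] at h2
  exact h2

/-- the minima of the moduli of the initial segments have a bounded subsequence -/
theorem liminf_bounded {a : ℕ → ℂ} (ha : ∀ k, ‖a k‖ = 1) :
    ∃ K : ℝ, ∃ᶠ n in atTop, ∃ θ : ℝ, ‖s a n θ‖ ≤ K := by
  by_cases h : ∃ᶠ n in atTop, ∃ θ : ℝ, ‖s a n θ‖ ≤ 1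
  · exact ⟨1, h⟩
  rw [Filter.not_frequently] at h
  obtain ⟨m0, hm0⟩ := Filter.eventually_atTop.1 h
  set m := max m0 1 with hm
  have hm1 : ∀ n, m ≤ n → ∀ θ : ℝ, 1 < ‖s a n θ‖ := by
    intro n hn θ
    by_contra hcon
    exact hm0 n ((le_max_left _ _).trans hn) ⟨θ, not_lt.1 hcon⟩
  have hne : ∀ n, m ≤ n → ∀ z : ℂ, ‖z‖ = 1 → (P a n).eval z ≠ 0 := by
    intro n hn z hz h0
    have h1 : cexp (z.arg * I) = z := by
      have := Complex.norm_mul_exp_arg_mul_I z
      rwa [hz, ofReal_one, one_mul] at this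
    rw [← h1, P_exp] at h0
    have := hm1 n hn z.arg
    rw [h0, norm_zero] at this
    linarith
  set Z := ((P a m).roots.filter fun w => ‖w‖ < 1).card with hZ
  refine ⟨2 ^ Z + 1, (Filter.eventually_atTop.2 ⟨m, fun n hn => ?_⟩).frequently⟩
  by_contra hcon
  push Not at hcon
  have hn1 : 0 < n := lt_of_lt_of_le (by omega) hn
  have h1 : (2:ℝ) ^ Z + 1 ≤ (P a n).mahlerMeasure :=
    mahler_ge (by positivity) fun θ => by rw [P_exp]; exact (hcon θ).le
  have hP0 : P a n ≠ 0 := by
    intro h0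
    have := hne n hn 1 (by simp)
    rw [h0] at this
    exact this (by simp)
  have h2 := mahler_le ha hn1 hP0
  have h3 := wind_const ha hn (fun l hl1 _ θ => hm1 l hl1 θ)
  have h4 := arg_principle (hne n hn)
  have h5 := arg_principle (hne m le_rfl)
  simp only [P_exp, P_deriv] at h4 h5
  rw [h3, h5] at h4
  have h6 : Z = ((P a n).roots.filter fun w => ‖w‖ < 1).card := by
    have h7 : (2 * (π:ℂ)) ≠ 0 := by
      exact_mod_cast (by positivity : (2 * π : ℝ) ≠ 0)
    exact_mod_cast mul_left_cancel₀ h7 h4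
  rw [← h6] at h2
  linarith

end Vale.Agent.P110
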