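import Vale.Agent.Lib.P110.Base

/-! P110: two flat initial segments of different lengths. -/

open MeasureTheory Set Filter Topology Complex
open scoped ComplexConjugate Real

namespace Vale.Agent.P110

/-- the winding number is constant as long as the segments stay above one in modulus -/
theorem wind_const {a : ℕ → ℂ} (ha : ∀ k, ‖a k‖ = 1) {m n : ℕ} (hmn : m ≤ n)
    (h : ∀ l, m ≤ l → l < n → ∀ θ, 1 < ‖s a l θ‖) :
    (∫ θ in (0:ℝ)..(2 * π), s (fun k => k * a k) n θ / s a n θ) =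
      ∫ θ in (0:ℝ)..(2 * π), s (fun k => k * a k) m θ / s a m θ := by
  induction n, hmn using Nat.le_induction with
  | base => rfl
  | succ n hmn ih =>
    rw [wind_succ (ha n) (h n hmn (Nat.lt_succ_self n))]
    exact ih fun l h1 h2 => h l h1 (Nat.lt_succ_of_lt h2)

theorem main {a : ℕ → ℂ} (ha : ∀ k, ‖a k‖ = 1) {c : ℝ} (hc0 : 0 ≤ c) {m n : ℕ} (hm : 1 ≤ m)
    (hmn : (1 + 8 * c) * m < (1 - 8 * c) * n)
    (h0 : ∀ θ, (1 - c) * Real.sqrt m ≤ ‖s a m θ‖ ∧ ‖s a m θ‖ ≤ (1 + c) * Real.sqrt m)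
    (h1 : ∀ θ, (1 - c) * Real.sqrt n ≤ ‖s a n θ‖ ∧ ‖s a n θ‖ ≤ (1 + c) * Real.sqrt n) :
    ∃ l, m ≤ l ∧ l < n ∧ ∃ θ : ℝ, ‖s a l θ‖ ≤ 1 := by
  have hmR : (1:ℝ) ≤ m := by exact_mod_cast hm
  have hnR0 : (0:ℝ) ≤ n := Nat.cast_nonneg n
  have hc : c ≤ 1 / 8 := by
    by_contra hcon
    push Not at hcon
    nlinarith
  have hlt : (m:ℝ) < n := by nlinarith
  have hlt' : m < n := by exact_mod_cast hlt
  by_contra hcon
  push Not at hcon
  have h2 := wind_const ha hlt'.le (fun l hl1 hl2 θ => hcon l hl1 hl2 θ)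
  have e0 := wind_est ha (by omega : 0 < m) hc0 hc h0
  have e1 := wind_est ha (by omega : 0 < n) hc0 hc h1
  rw [h2] at e1
  set W := ∫ θ in (0:ℝ)..(2 * π), s (fun k => (k:ℂ) * a k) m θ / s a m θ
  have e2 : ‖(2 * π * (((n:ℂ) - 1) / 2) - 2 * π * (((m:ℂ) - 1) / 2))‖ ≤
      2 * π * (4 * c * m) + 2 * π * (4 * c * n) := by
    have : (2 * π * (((n:ℂ) - 1) / 2) - 2 * π * (((m:ℂ) - 1) / 2)) =
        (W - 2 * π * (((m:ℂ) - 1) / 2)) - (W - 2 * π * (((n:ℂ) - 1) / 2)) := by ring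
    rw [this]
    exact (norm_sub_le _ _).trans (add_le_add e0 e1)
  have e3 : (2 * π * (((n:ℂ) - 1) / 2) - 2 * π * (((m:ℂ) - 1) / 2)) = ((π * (n - m) : ℝ) : ℂ) := by
    push_cast
    ring
  rw [e3, Complex.norm_real, Real.norm_eq_abs, abs_of_nonneg
    (mul_nonneg Real.pi_pos.le (by linarith))] at e2
  have hpi := Real.pi_pos
  have e4 : (n:ℝ) - m ≤ 8 * c * m + 8 * c * n := by
    have : π * ((n:ℝ) - m) ≤ π * (8 * c * m + 8 * c * n) := by nlinarith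
    exact le_of_mul_le_mul_left this hpi
  nlinarith

end Vale.Agent.P110
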