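import Vale.Agent.Lib.P110.UnionsDef

/-! P110: structural obstructions for flat Littlewood polynomials. -/

namespace Vale.Agent.P110.Unions

open Finset Complex

/-- sums of powers of roots of unity -/
theorem sum_root {K e : ℕ} (he : 0 < e) (heK : e < K) :
    ∑ j ∈ range K, ((exp (2 * Real.pi * I / K)) ^ j) ^ e = 0 := by
  have hK : K ≠ 0 := by omega
  have hp := Complex.isPrimitiveRoot_exp K hK
  have h1 : (exp (2 * Real.pi * I / K)) ^ e ≠ 1 := hp.pow_ne_one_of_pos_of_lt he.ne' heK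
  have h2 : ∑ j ∈ range K, ((exp (2 * Real.pi * I / K)) ^ j) ^ e =
      ∑ j ∈ range K, ((exp (2 * Real.pi * I / K)) ^ e) ^ j := by
    refine sum_congr rfl fun j _ => ?_
    rw [← pow_mul, ← pow_mul, Nat.mul_comm]
  rw [h2, geom_sum_eq h1, ← pow_mul, mul_comm e K, pow_mul, hp.pow_eq_one, one_pow, sub_self,
    zero_div]

theorem lw_add (a : ℕ → ℤ) (N M : ℕ) (z : ℂ) :
    lw a (N + M) z = lw a N z + z ^ N * lw (fun k => a (N + k)) M z := by
  unfold lw
  rw [sum_range_add, mul_sum]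
  congr 1
  refine sum_congr rfl fun k _ => ?_
  rw [pow_add]; ring

theorem conj_pow_mul {z : ℂ} (hz : ‖z‖ = 1) {k n : ℕ} (h : k ≤ n) :
    z ^ n * (starRingEnd ℂ) (z ^ k) = z ^ (n - k) := by
  have h1 : z ^ n = z ^ (n - k) * z ^ k := by rw [← pow_add]; congr 1; omega
  rw [h1, mul_assoc, Complex.mul_conj, Complex.normSq_eq_norm_sq, norm_pow, hz]
  simp

/-- the cross term, with strictly positive frequencies -/
theorem cross {z : ℂ} (hz : ‖z‖ = 1) (a b : ℕ → ℤ) (N M : ℕ) :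
    z ^ N * lw b M z * (starRingEnd ℂ) (lw a N z) =
      ∑ p ∈ range M ×ˢ range N, ((b p.1 : ℂ) * (a p.2 : ℂ)) * z ^ (N + p.1 - p.2) := by
  unfold lw
  rw [map_sum, mul_assoc, sum_mul_sum, mul_sum, sum_product]
  refine sum_congr rfl fun l hl => ?_
  rw [mul_sum]
  refine sum_congr rfl fun k hk => ?_
  have hk' : k < N := mem_range.1 hk
  rw [map_mul, ← conj_pow_mul hz (show k ≤ N + l by omega), pow_add]
  simp only [map_intCast]
  ring

theorem sum_sq_cross (a b : ℕ → ℤ) (N M : ℕ) :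
    ∑ j ∈ range (2 * (N + M)),
      ((fun z : ℂ => z ^ N * lw b M z * (starRingEnd ℂ) (lw a N z))
        ((exp (2 * Real.pi * I / ((2 * (N + M) : ℕ) : ℂ))) ^ j)) ^ 2 = 0 := by
  set K : ℕ := 2 * (N + M) with hK
  set ζ : ℂ := exp (2 * Real.pi * I / (K : ℂ)) with hζ
  have hn : ∀ j : ℕ, ‖ζ ^ j‖ = 1 := by
    intro j
    rw [norm_pow]
    have : ‖ζ‖ = 1 := by
      rw [hζ, show (2 * Real.pi * I / (K : ℂ)) = ((2 * Real.pi / K : ℝ) : ℂ) * I by
        push_cast; ring]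
      exact Complex.norm_exp_ofReal_mul_I _
    rw [this, one_pow]
  have h1 : ∀ j : ℕ, ((fun z : ℂ => z ^ N * lw b M z * (starRingEnd ℂ) (lw a N z)) (ζ ^ j)) ^ 2 =
      ∑ p ∈ range M ×ˢ range N, ∑ q ∈ range M ×ˢ range N,
        (((b p.1 : ℂ) * (a p.2 : ℂ)) * ((b q.1 : ℂ) * (a q.2 : ℂ))) *
          (ζ ^ j) ^ ((N + p.1 - p.2) + (N + q.1 - q.2)) := by
    intro j
    simp only
    rw [cross (hn j), sq, sum_mul_sum]
    refine sum_congr rfl fun p _ => sum_congr rfl fun q _ => ?_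
    rw [pow_add]; ring
  simp only [h1]
  rw [sum_comm]
  refine sum_eq_zero fun p hp => ?_
  rw [sum_comm]
  refine sum_eq_zero fun q hq => ?_
  rw [← mul_sum]
  have hp1 := mem_range.1 (mem_product.1 hp).1
  have hp2 := mem_range.1 (mem_product.1 hp).2
  have hq1 := mem_range.1 (mem_product.1 hq).1
  have hq2 := mem_range.1 (mem_product.1 hq).2
  rw [hζ, sum_root (by omega) (by omega), mul_zero]

theorem norm_root (K j : ℕ) : ‖(exp (2 * Real.pi * I / (K : ℂ))) ^ j‖ = 1 := by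
  rw [norm_pow]
  have : ‖exp (2 * Real.pi * I / (K : ℂ))‖ = 1 := by
    rw [show (2 * Real.pi * I / (K : ℂ)) = ((2 * Real.pi / K : ℝ) : ℂ) * I by
      push_cast; ring]
    exact Complex.norm_exp_ofReal_mul_I _
  rw [this, one_pow]

/-- concatenations of flat polynomials are not flat -/
theorem concat {c : ℝ} (_hc0 : 0 ≤ c) (hc1 : c ≤ 1) (a : ℕ → ℤ) (N M : ℕ) (hN : 0 < N)
    (h : Flat c a (N + M)) (h1 : Flat c a N) (h2 : Flat c (fun k => a (N + k)) M) :
    (1 - c) ^ 4 * (N * M) ≤ 8 * c ^ 2 * ((N : ℝ) + M) ^ 2 := by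
  set K : ℕ := 2 * (N + M) with hK
  have hKpos : (0 : ℝ) < K := by
    have : 0 < K := by omega
    exact_mod_cast this
  set ζ : ℂ := exp (2 * Real.pi * I / (K : ℂ)) with hζ
  set g : ℂ → ℂ := fun z => z ^ N * lw (fun k => a (N + k)) M z * (starRingEnd ℂ) (lw a N z)
    with hg
  have hz : ∀ j : ℕ, ‖ζ ^ j‖ = 1 := norm_root K
  have hsum : ∑ j ∈ range K, (g (ζ ^ j)) ^ 2 = 0 := sum_sq_cross a (fun k => a (N + k)) N M
  have hre : ∑ j ∈ range K, ((g (ζ ^ j)) ^ 2).re = 0 := by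
    rw [← Complex.re_sum, hsum, Complex.zero_re]
  have hid : ∀ w : ℂ, (2 * w.re) ^ 2 = 2 * ‖w‖ ^ 2 + 2 * (w ^ 2).re := by
    intro w
    rw [← Complex.normSq_eq_norm_sq, Complex.normSq_apply, sq w, Complex.mul_re]
    ring
  have hN0 : (0:ℝ) ≤ N := Nat.cast_nonneg _
  have hM0 : (0:ℝ) ≤ M := Nat.cast_nonneg _
  have hlow : ∀ j ∈ range K, 2 * ((1 - c) ^ 4 * (N * M)) + 2 * ((g (ζ ^ j)) ^ 2).re ≤
      (2 * (g (ζ ^ j)).re) ^ 2 := by
    intro j _
    rw [hid]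
    have e1 := (h1 _ (hz j)).1
    have e2 := (h2 _ (hz j)).1
    have hnorm : ‖g (ζ ^ j)‖ = ‖lw (fun k => a (N + k)) M (ζ ^ j)‖ * ‖lw a N (ζ ^ j)‖ := by
      rw [hg]
      simp only
      rw [norm_mul, norm_mul, norm_pow, hz j, one_pow, one_mul, RCLike.norm_conj]
    have e3 : ((1 - c) * Real.sqrt M) * ((1 - c) * Real.sqrt N) ≤ ‖g (ζ ^ j)‖ := by
      rw [hnorm]
      exact mul_le_mul e2 e1 (mul_nonneg (by linarith) (Real.sqrt_nonneg _)) (norm_nonneg _)
    have e0 : 0 ≤ ((1 - c) * Real.sqrt M) * ((1 - c) * Real.sqrt N) :=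
      mul_nonneg (mul_nonneg (by linarith) (Real.sqrt_nonneg _))
        (mul_nonneg (by linarith) (Real.sqrt_nonneg _))
    have e4 : (((1 - c) * Real.sqrt M) * ((1 - c) * Real.sqrt N)) ^ 2 ≤ ‖g (ζ ^ j)‖ ^ 2 :=
      pow_le_pow_left₀ e0 e3 2
    have e5 : (((1 - c) * Real.sqrt M) * ((1 - c) * Real.sqrt N)) ^ 2 = (1 - c) ^ 4 * (N * M) := by
      rw [show (((1 - c) * Real.sqrt M) * ((1 - c) * Real.sqrt N)) ^ 2 =
        (1 - c) ^ 4 * (Real.sqrt N ^ 2 * Real.sqrt M ^ 2) by ring, Real.sq_sqrt hN0,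
        Real.sq_sqrt hM0]
    rw [e5] at e4
    linarith
  have hup : ∀ j ∈ range K, (2 * (g (ζ ^ j)).re) ^ 2 ≤ (4 * c * (N + M)) ^ 2 := by
    intro j _
    have hW : ‖lw a (N + M) (ζ ^ j)‖ ^ 2 = ‖lw a N (ζ ^ j)‖ ^ 2 +
        ‖lw (fun k => a (N + k)) M (ζ ^ j)‖ ^ 2 + 2 * (g (ζ ^ j)).re := by
      rw [lw_add, ← Complex.normSq_eq_norm_sq, Complex.normSq_add, ← Complex.normSq_eq_norm_sq,
        ← Complex.normSq_eq_norm_sq, Complex.normSq_mul]
      have : Complex.normSq ((ζ ^ j) ^ N) = 1 := by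
        rw [Complex.normSq_eq_norm_sq, norm_pow, hz j, one_pow, one_pow]
      rw [this, one_mul]
      congr 2
      rw [hg]
      simp only
      rw [← Complex.conj_re]
      congr 1
      simp only [map_mul, Complex.conj_conj]
      ring
    have s1 := h _ (hz j)
    have s2 := h1 _ (hz j)
    have s3 := h2 _ (hz j)
    have q : ∀ (x y s : ℝ), 0 ≤ s → (1 - c) * Real.sqrt s ≤ x → x ≤ (1 + c) * Real.sqrt s →
        (1 - c) ^ 2 * s ≤ x ^ 2 ∧ x ^ 2 ≤ (1 + c) ^ 2 * s := by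
      intro x y s hs l u
      have h0 : 0 ≤ (1 - c) * Real.sqrt s := mul_nonneg (by linarith) (Real.sqrt_nonneg _)
      constructor
      · calc (1 - c) ^ 2 * s = ((1 - c) * Real.sqrt s) ^ 2 := by rw [mul_pow, Real.sq_sqrt hs]
          _ ≤ x ^ 2 := pow_le_pow_left₀ h0 l 2
      · calc x ^ 2 ≤ ((1 + c) * Real.sqrt s) ^ 2 := pow_le_pow_left₀ (h0.trans l) u 2
          _ = (1 + c) ^ 2 * s := by rw [mul_pow, Real.sq_sqrt hs]
    have t1 := q _ 0 _ (Nat.cast_nonneg _) s1.1 s1.2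
    have t2 := q _ 0 _ hN0 s2.1 s2.2
    have t3 := q _ 0 _ hM0 s3.1 s3.2
    push_cast at t1
    rw [hW] at t1
    apply sq_le_sq'
    · nlinarith [t1.1, t2.2, t3.2]
    · nlinarith [t1.2, t2.1, t3.1]
  have hA := sum_le_sum hlow
  have hB := sum_le_sum hup
  rw [sum_add_distrib, ← mul_sum (f := fun j => ((g (ζ ^ j)) ^ 2).re), hre] at hA
  simp only [sum_const, card_range, nsmul_eq_mul, mul_zero, add_zero] at hA hB
  have hC : (K : ℝ) * (2 * ((1 - c) ^ 4 * (N * M))) ≤ K * (4 * c * (N + M)) ^ 2 := hA.trans hB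
  have hD := le_of_mul_le_mul_left hC hKpos
  nlinarith [hD]

/-- the value at 1 of the decimations -/
theorem sum_decim {R : Type} [AddCommMonoid R] (f : ℕ → R) (m n : ℕ) :
    ∑ j ∈ range (m * n), f j = ∑ r ∈ range m, ∑ k ∈ range n, f (r + m * k) := by
  induction n with
  | zero => simp
  | succ n ih =>
    rw [Nat.mul_succ, sum_range_add, ih, ← sum_add_distrib]
    refine sum_congr rfl fun r _ => ?_
    rw [sum_range_succ, add_comm (m * n) r]

theorem lw_one (a : ℕ → ℤ) (N : ℕ) : lw a N 1 = ((∑ k ∈ range N, a k : ℤ) : ℂ) := by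
  unfold lw
  push_cast
  refine sum_congr rfl fun k _ => ?_
  rw [one_pow, mul_one]

theorem norm_lw_one (a : ℕ → ℤ) (N : ℕ) : ‖lw a N 1‖ = |((∑ k ∈ range N, a k : ℤ) : ℝ)| := by
  rw [lw_one, Complex.norm_intCast]

/-- the decimations of a flat polynomial are not all flat, unless their number is a square -/
theorem decim {c : ℝ} (a : ℕ → ℤ) (m n : ℕ) (hm : ¬ IsSquare m) (hn : 0 < n)
    (h : Flat c a (m * n)) (h1 : ∀ r < m, Flat c (fun k => a (r + m * k)) n) :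
    1 ≤ 4 * m ^ 2 * c := by
  have hm1 : 1 ≤ m := by
    rcases Nat.eq_zero_or_pos m with h0 | h0
    · exact absurd (by rw [h0]; exact ⟨0, rfl⟩) hm
    · exact h0
  set S : ℕ → ℤ := fun r => ∑ k ∈ range n, a (r + m * k) with hS
  have hW : ‖lw a (m * n) 1‖ = |((∑ r ∈ range m, S r : ℤ) : ℝ)| := by
    rw [norm_lw_one, sum_decim]
  have hq : 0 < Real.sqrt n := Real.sqrt_pos.2 (by exact_mod_cast hn)
  set q : ℝ := Real.sqrt n with hqd
  set w : ℝ := Real.sqrt m with hwd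
  have hmR : (1:ℝ) ≤ m := by exact_mod_cast hm1
  have hw1 : 1 ≤ w := by rw [hwd]; exact Real.one_le_sqrt.2 hmR
  have hww : w ^ 2 = m := Real.sq_sqrt (by positivity)
  have hwm : w ≤ m := by nlinarith
  have hb := h 1 (by simp)
  rw [hW, Nat.cast_mul, Real.sqrt_mul (by positivity), ← hqd, ← hwd] at hb
  have hr : ∀ r ∈ range m, |((S r : ℤ) : ℝ) - q * (if 0 ≤ S r then (1:ℤ) else -1 : ℤ)| ≤ c * q := by
    intro r hr
    have e := h1 r (mem_range.1 hr) 1 (by simp)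
    rw [norm_lw_one] at e
    change (1 - c) * q ≤ |((S r : ℤ) : ℝ)| ∧ |((S r : ℤ) : ℝ)| ≤ (1 + c) * q at e
    split_ifs with h0
    · have : (0:ℝ) ≤ (S r : ℤ) := by exact_mod_cast h0
      rw [abs_of_nonneg this] at e
      rw [abs_le]; push_cast; constructor <;> nlinarith [e.1, e.2]
    · have : ((S r : ℤ) : ℝ) < 0 := by exact_mod_cast not_le.1 h0
      rw [abs_of_neg this] at e
      rw [abs_le]; push_cast; constructor <;> nlinarith [e.1, e.2]
  set s : ℤ := ∑ r ∈ range m, (if 0 ≤ S r then (1:ℤ) else -1) with hs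
  have hsum : |((∑ r ∈ range m, S r : ℤ) : ℝ) - q * (s : ℝ)| ≤ m * (c * q) := by
    have e1 : ((∑ r ∈ range m, S r : ℤ) : ℝ) - q * (s : ℝ) =
        ∑ r ∈ range m, (((S r : ℤ) : ℝ) - q * (if 0 ≤ S r then (1:ℤ) else -1 : ℤ)) := by
      rw [sum_sub_distrib, ← mul_sum, hs]
      push_cast
      rfl
    rw [e1]
    refine (abs_sum_le_sum_abs _ _).trans ((sum_le_sum hr).trans ?_)
    simp
  have hsm : |(s : ℝ)| ≤ m := by
    have : |s| ≤ m := by
      rw [hs]
      refine (abs_sum_le_sum_abs _ _).trans ?_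
      refine (sum_le_sum (g := fun _ => (1:ℤ)) fun r _ => ?_).trans ?_
      · split_ifs <;> simp
      · simp
    exact_mod_cast this
  set t : ℝ := |(s : ℝ)| with ht
  have ht0 : 0 ≤ t := abs_nonneg _
  -- t q is close to w q
  have hA : |((∑ r ∈ range m, S r : ℤ) : ℝ)| ≤ q * t + m * (c * q) := by
    have := abs_sub_abs_le_abs_sub ((∑ r ∈ range m, S r : ℤ) : ℝ) (q * (s : ℝ))
    rw [abs_mul, abs_of_pos hq] at this
    linarith
  have hB : q * t ≤ |((∑ r ∈ range m, S r : ℤ) : ℝ)| + m * (c * q) := by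
    have := abs_sub_abs_le_abs_sub (q * (s : ℝ)) ((∑ r ∈ range m, S r : ℤ) : ℝ)
    rw [abs_sub_comm, abs_mul, abs_of_pos hq] at this
    linarith
  have hc0 : 0 ≤ c := by
    by_contra hneg
    rw [not_le] at hneg
    have e := h1 0 hm1 1 (by simp)
    have := e.1.trans e.2
    nlinarith
  have hC : w - t ≤ 2 * m * c := by
    have h2 : (1 - c) * (w * q) ≤ q * t + m * (c * q) := hb.1.trans hA
    have h3 : q * ((1 - c) * w) ≤ q * (t + m * c) := by linarith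
    have h4 := le_of_mul_le_mul_left h3 hq
    nlinarith
  have hD : t - w ≤ 2 * m * c := by
    have h2 : q * t ≤ (1 + c) * (w * q) + m * (c * q) := hB.trans (by linarith [hb.2])
    have h3 : q * t ≤ q * ((1 + c) * w + m * c) := by linarith
    have h4 := le_of_mul_le_mul_left h3 hq
    nlinarith
  have hne : (1:ℝ) ≤ |t ^ 2 - w ^ 2| := by
    have e1 : t ^ 2 - w ^ 2 = (((s ^ 2 - (m : ℤ) : ℤ)) : ℝ) := by
      rw [ht, sq_abs, hww]; push_cast; ring
    have e2 : s ^ 2 - (m : ℤ) ≠ 0 := by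
      intro h0
      apply hm
      refine ⟨s.natAbs, ?_⟩
      have : ((s.natAbs * s.natAbs : ℕ) : ℤ) = s ^ 2 := by
        rw [Nat.cast_mul, Int.natCast_natAbs]
        nlinarith [abs_mul_abs_self s]
      have h5 : ((m : ℕ) : ℤ) = ((s.natAbs * s.natAbs : ℕ) : ℤ) := by rw [this]; linarith
      exact_mod_cast h5
    rw [e1]
    exact_mod_cast Int.one_le_abs e2
  have hE : |t ^ 2 - w ^ 2| ≤ (2 * m * c) * (2 * m) := by
    have e1 : t ^ 2 - w ^ 2 = (t - w) * (t + w) := by ring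
    rw [e1, abs_mul]
    have e2 : |t - w| ≤ 2 * m * c := abs_le.2 ⟨by linarith, hD⟩
    have e3 : |t + w| ≤ 2 * m := by rw [abs_of_nonneg (by linarith)]; linarith
    exact mul_le_mul e2 e3 (abs_nonneg _) (by positivity)
  nlinarith

/-- Kronecker products -/
theorem lw_kron (b d : ℕ → ℤ) (m n : ℕ) (hm : 0 < m) (z : ℂ) :
    lw (fun k => b (k % m) * d (k / m)) (m * n) z = lw b m z * lw d n (z ^ m) := by
  unfold lw
  rw [sum_decim, sum_mul_sum]
  refine sum_congr rfl fun r hr => sum_congr rfl fun k _ => ?_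
  have hr' := mem_range.1 hr
  beta_reduce
  rw [Nat.add_mul_mod_self_left, Nat.mod_eq_of_lt hr', Nat.add_mul_div_left _ _ hm,
    Nat.div_eq_of_lt hr', Nat.zero_add, pow_add, pow_mul]
  push_cast
  ring

/-- expansion of `|Q|^2` times a power -/
theorem norm_sq_pow {z : ℂ} (hz : ‖z‖ = 1) (b : ℕ → ℤ) (m T : ℕ) (hT : m ≤ T) :
    ((‖lw b m z‖ ^ 2 : ℝ) : ℂ) * z ^ T =
      ∑ p ∈ range m ×ˢ range m, ((b p.1 : ℂ) * (b p.2 : ℂ)) * z ^ (p.1 + (T - p.2)) := by
  have e : ((‖lw b m z‖ ^ 2 : ℝ) : ℂ) = lw b m z * (starRingEnd ℂ) (lw b m z) := by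
    rw [Complex.mul_conj, Complex.normSq_eq_norm_sq]
  rw [e]
  unfold lw
  rw [map_sum, sum_mul_sum, sum_product, sum_mul]
  refine sum_congr rfl fun k _ => ?_
  rw [sum_mul]
  refine sum_congr rfl fun l hl => ?_
  have hl' := mem_range.1 hl
  rw [map_mul, pow_add, ← conj_pow_mul hz (show l ≤ T by omega)]
  simp only [map_intCast]
  ring

theorem root_pow (K : ℕ) (hK : 0 < K) (j : ℕ) : ((exp (2 * Real.pi * I / (K : ℂ))) ^ j) ^ K = 1 := by
  rw [← pow_mul, Nat.mul_comm, pow_mul, (Complex.isPrimitiveRoot_exp K hK.ne').pow_eq_one, one_pow]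

theorem sum_root2 {m e : ℕ} (hm : 0 < m) (he : 0 < e) (he2 : e < 2 * m) :
    ∑ j ∈ range m, ((exp (2 * Real.pi * I / m)) ^ j) ^ e = if e = m then (m : ℂ) else 0 := by
  split_ifs with h
  · rw [h, sum_congr rfl fun j _ => root_pow m hm j]
    simp
  · rcases lt_or_gt_of_ne h with h1 | h1
    · exact sum_root he h1
    · rw [← sum_root (K := m) (e := e - m) (by omega) (by omega)]
      refine sum_congr rfl fun j _ => ?_
      have : ((exp (2 * Real.pi * I / m)) ^ j) ^ e =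
          ((exp (2 * Real.pi * I / m)) ^ j) ^ (e - m) * ((exp (2 * Real.pi * I / m)) ^ j) ^ m := by
        rw [← pow_add]; congr 1; omega
      rw [this, root_pow m hm j, mul_one]

/-- the mean square of a Littlewood polynomial of length `m` over a coset of the `m`-th roots of
unity -/
theorem avg_roots {z : ℂ} (hz : ‖z‖ = 1) (b : ℕ → ℤ) (m : ℕ) (hm : 0 < m)
    (hb : ∀ k < m, b k = 1 ∨ b k = -1) :
    ∑ j ∈ range m, ‖lw b m (z * (exp (2 * Real.pi * I / m)) ^ j)‖ ^ 2 = (m : ℝ) ^ 2 := by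
  have hw : ∀ j : ℕ, ‖z * (exp (2 * Real.pi * I / m)) ^ j‖ = 1 := by
    intro j; rw [norm_mul, hz, norm_root, one_mul]
  have h1 : (∑ j ∈ range m, ((‖lw b m (z * (exp (2 * Real.pi * I / m)) ^ j)‖ ^ 2 : ℝ) : ℂ)) * z ^ m =
      ((m : ℂ) ^ 2) * z ^ m := by
    rw [sum_mul]
    have h2 : ∀ j ∈ range m,
        ((‖lw b m (z * (exp (2 * Real.pi * I / m)) ^ j)‖ ^ 2 : ℝ) : ℂ) * z ^ m =
        ∑ p ∈ range m ×ˢ range m, ((b p.1 : ℂ) * (b p.2 : ℂ)) *
          (z ^ (p.1 + (m - p.2)) * ((exp (2 * Real.pi * I / m)) ^ j) ^ (p.1 + (m - p.2))) := by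
      intro j _
      have e := norm_sq_pow (hw j) b m m le_rfl
      rw [mul_pow, root_pow m hm j, mul_one] at e
      rw [e]
      refine sum_congr rfl fun p _ => ?_
      rw [mul_pow]
    rw [sum_congr rfl h2, sum_comm]
    have h3 : ∀ p ∈ range m ×ˢ range m, ∑ j ∈ range m, ((b p.1 : ℂ) * (b p.2 : ℂ)) *
          (z ^ (p.1 + (m - p.2)) * ((exp (2 * Real.pi * I / m)) ^ j) ^ (p.1 + (m - p.2))) =
        if p.1 = p.2 then (m : ℂ) * z ^ m else 0 := by
      intro p hp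
      have hp1 := mem_range.1 (mem_product.1 hp).1
      have hp2 := mem_range.1 (mem_product.1 hp).2
      rw [← mul_sum, ← mul_sum, sum_root2 hm (by omega) (by omega)]
      by_cases h : p.1 = p.2
      · rw [if_pos h, if_pos (by omega)]
        have e1 : p.1 + (m - p.2) = m := by omega
        rw [e1, h]
        have e2 : (b p.2 : ℂ) * (b p.2 : ℂ) = 1 := by
          rcases hb _ hp2 with h0 | h0 <;> rw [h0] <;> norm_num
        rw [e2]; ring
      · rw [if_neg h, if_neg (by omega)]; ring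
    rw [sum_congr rfl h3, sum_product]
    simp only [sum_ite_eq, mem_range]
    rw [sum_congr rfl fun k hk => if_pos (mem_range.1 hk)]
    simp only [sum_const, card_range, nsmul_eq_mul]
    ring
  have hz0 : z ^ m ≠ 0 := by
    apply pow_ne_zero
    intro h0; rw [h0, norm_zero] at hz; norm_num at hz
  have h2 := mul_right_cancel₀ hz0 h1
  exact_mod_cast h2

/-- some value of `|Q|^2` is far from its mean -/
theorem dev {b : ℕ → ℤ} {m : ℕ} (hm : 2 ≤ m) (hb : ∀ k < m, b k = 1 ∨ b k = -1) {δ : ℝ}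
    (h : ∀ z : ℂ, ‖z‖ = 1 → |‖lw b m z‖ ^ 2 - m| ≤ δ) : 1 ≤ δ := by
  set K : ℕ := 2 * m with hK
  have hKpos : 0 < K := by omega
  set ξ : ℂ := exp (2 * Real.pi * I / (K : ℂ)) with hξ
  have hn : ∀ j : ℕ, ‖ξ ^ j‖ = 1 := norm_root K
  have h1 : ∑ j ∈ range K, ((‖lw b m (ξ ^ j)‖ ^ 2 : ℝ) : ℂ) * (ξ ^ j) ^ (m + 1) =
      ((b (m - 1) : ℂ) * (b 0 : ℂ)) * K := by
    have h2 : ∀ j ∈ range K, ((‖lw b m (ξ ^ j)‖ ^ 2 : ℝ) : ℂ) * (ξ ^ j) ^ (m + 1) =
        ∑ p ∈ range m ×ˢ range m, ((b p.1 : ℂ) * (b p.2 : ℂ)) *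
          (ξ ^ j) ^ (p.1 + (m + 1 - p.2)) := fun j _ => norm_sq_pow (hn j) b m (m + 1) (by omega)
    rw [sum_congr rfl h2, sum_comm]
    rw [sum_eq_single ((m - 1, 0) : ℕ × ℕ)]
    · have e1 : (m - 1, 0).1 + (m + 1 - (m - 1, 0).2) = K := by simp only; omega
      rw [← mul_sum, e1, sum_congr rfl fun j _ => root_pow K hKpos j]
      simp
    · intro p hp hne
      have hp1 := mem_range.1 (mem_product.1 hp).1
      have hp2 := mem_range.1 (mem_product.1 hp).2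
      have hlt : p.1 + (m + 1 - p.2) < K := by
        by_contra hcon
        apply hne
        have a1 : p.1 = m - 1 := by omega
        have a2 : p.2 = 0 := by omega
        exact Prod.ext a1 a2
      rw [← mul_sum, hξ, sum_root (by omega) hlt, mul_zero]
    · intro hcon
      exact absurd (mem_product.2 ⟨mem_range.2 (by simp only; omega), mem_range.2 (by simp only; omega)⟩) hcon
  have h3 : ∑ j ∈ range K, (m : ℂ) * (ξ ^ j) ^ (m + 1) = 0 := by
    rw [← mul_sum, hξ, sum_root (by omega) (by omega), mul_zero]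
  have h4 : ‖∑ j ∈ range K, ((((‖lw b m (ξ ^ j)‖ ^ 2 - m : ℝ)) : ℂ) * (ξ ^ j) ^ (m + 1))‖ = K := by
    have e : ∑ j ∈ range K, ((((‖lw b m (ξ ^ j)‖ ^ 2 - m : ℝ)) : ℂ) * (ξ ^ j) ^ (m + 1)) =
        ((b (m - 1) : ℂ) * (b 0 : ℂ)) * K := by
      rw [← h1, ← sub_zero (∑ j ∈ range K, ((‖lw b m (ξ ^ j)‖ ^ 2 : ℝ) : ℂ) * (ξ ^ j) ^ (m + 1)),
        ← h3, ← sum_sub_distrib]
      refine sum_congr rfl fun j _ => ?_
      push_cast
      ring
    rw [e, norm_mul, norm_mul]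
    have u : ∀ k < m, ‖(b k : ℂ)‖ = 1 := by
      intro k hk
      rcases hb k hk with h0 | h0 <;> rw [h0] <;> simp
    rw [u _ (by omega), u _ (by omega)]
    simp
  have h5 : (K : ℝ) ≤ K * δ := by
    rw [← h4]
    refine (norm_sum_le _ _).trans ?_
    calc ∑ j ∈ range K, ‖((((‖lw b m (ξ ^ j)‖ ^ 2 - m : ℝ)) : ℂ) * (ξ ^ j) ^ (m + 1))‖
        ≤ ∑ _j ∈ range K, δ := by
          refine sum_le_sum fun j _ => ?_
          rw [norm_mul, norm_pow, hn j, one_pow, mul_one, Complex.norm_real, Real.norm_eq_abs]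
          exact h _ (hn j)
      _ = K * δ := by simp
      _ = _ := by rw [h4]
  have hKR : (0:ℝ) < K := by exact_mod_cast hKpos
  nlinarith

/-- a flat Kronecker product has long factors -/
theorem kron {c : ℝ} (hc0 : 0 ≤ c) (hc1 : c < 1) (b d : ℕ → ℤ) (m n : ℕ) (hm : 2 ≤ m) (hn : 0 < n)
    (hb : ∀ k < m, b k = 1 ∨ b k = -1)
    (h : Flat c (fun k => b (k % m) * d (k / m)) (m * n)) :
    Flat c d n ∧ (1 - c) ^ 2 ≤ 4 * m * c := by
  have hm0 : 0 < m := by omega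
  have hmR : (0:ℝ) < m := by exact_mod_cast hm0
  have hnR : (0:ℝ) < n := by exact_mod_cast hn
  set W : ℂ → ℂ := lw (fun k => b (k % m) * d (k / m)) (m * n) with hW
  have hWf : ∀ z, ‖W z‖ = ‖lw b m z‖ * ‖lw d n (z ^ m)‖ := by
    intro z; rw [hW, lw_kron b d m n hm0, norm_mul]
  have hWb : ∀ z : ℂ, ‖z‖ = 1 → (1 - c) ^ 2 * (m * n) ≤ ‖W z‖ ^ 2 ∧
      ‖W z‖ ^ 2 ≤ (1 + c) ^ 2 * (m * n) := by
    intro z hz
    have e := h z hz
    have hs : Real.sqrt ((m * n : ℕ) : ℝ) ^ 2 = m * n := by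
      rw [Real.sq_sqrt (Nat.cast_nonneg _)]; push_cast; ring
    have h0 : 0 ≤ (1 - c) * Real.sqrt ((m * n : ℕ) : ℝ) :=
      mul_nonneg (by linarith) (Real.sqrt_nonneg _)
    constructor
    · calc (1 - c) ^ 2 * (m * n) = ((1 - c) * Real.sqrt ((m * n : ℕ) : ℝ)) ^ 2 := by
            rw [mul_pow, hs]
        _ ≤ _ := pow_le_pow_left₀ h0 e.1 2
    · calc ‖W z‖ ^ 2 ≤ ((1 + c) * Real.sqrt ((m * n : ℕ) : ℝ)) ^ 2 :=
            pow_le_pow_left₀ (norm_nonneg _) e.2 2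
        _ = _ := by rw [mul_pow, hs]
  have hR : ∀ z : ℂ, ‖z‖ = 1 → (1 - c) ^ 2 * n ≤ ‖lw d n (z ^ m)‖ ^ 2 ∧
      ‖lw d n (z ^ m)‖ ^ 2 ≤ (1 + c) ^ 2 * n := by
    intro z hz
    set ω : ℂ := exp (2 * Real.pi * I / m) with hω
    have hw : ∀ j : ℕ, ‖z * ω ^ j‖ = 1 := by
      intro j; rw [norm_mul, hz, norm_root, one_mul]
    have e1 : ∑ j ∈ range m, ‖W (z * ω ^ j)‖ ^ 2 = (m:ℝ) ^ 2 * ‖lw d n (z ^ m)‖ ^ 2 := by
      rw [← avg_roots hz b m hm0 hb, sum_mul]
      refine sum_congr rfl fun j _ => ?_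
      rw [hWf, mul_pow z, root_pow m hm0 j, mul_one, mul_pow]
    have e2 : (m:ℝ) * ((1 - c) ^ 2 * (m * n)) ≤ ∑ j ∈ range m, ‖W (z * ω ^ j)‖ ^ 2 := by
      have := sum_le_sum (s := range m) fun j _ => (hWb _ (hw j)).1
      simpa using this
    have e3 : ∑ j ∈ range m, ‖W (z * ω ^ j)‖ ^ 2 ≤ (m:ℝ) * ((1 + c) ^ 2 * (m * n)) := by
      have := sum_le_sum (s := range m) fun j _ => (hWb _ (hw j)).2
      simpa using this
    rw [e1] at e2 e3
    have hmm : (0:ℝ) < (m:ℝ) ^ 2 := by positivity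
    constructor
    · refine le_of_mul_le_mul_left ?_ hmm
      linarith
    · refine le_of_mul_le_mul_left ?_ hmm
      linarith
  constructor
  · intro u hu
    -- every point is an m-th power
    obtain ⟨z, hz⟩ := IsAlgClosed.exists_pow_nat_eq u hm0
    have hz1 : ‖z‖ = 1 := by
      have : ‖z‖ ^ m = 1 := by rw [← norm_pow, hz, hu]
      exact (pow_eq_one_iff_of_nonneg (norm_nonneg _) hm0.ne').1 this
    have e := hR z hz1
    rw [hz] at e
    have hsn : Real.sqrt (n:ℝ) ^ 2 = n := Real.sq_sqrt hnR.le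
    constructor
    · refine abs_le_of_sq_le_sq' ?_ (norm_nonneg _) |>.2
      rw [mul_pow, hsn]; exact e.1
    · refine abs_le_of_sq_le_sq' ?_ (mul_nonneg (by linarith) (Real.sqrt_nonneg _)) |>.2
      rw [mul_pow, hsn]; exact e.2
  · have hQ : ∀ z : ℂ, ‖z‖ = 1 → |‖lw b m z‖ ^ 2 - m| ≤ 4 * m * c / (1 - c) ^ 2 := by
      intro z hz
      have e1 := hWb z hz
      have e2 := hR z hz
      rw [hWf, mul_pow] at e1
      set Q : ℝ := ‖lw b m z‖ ^ 2 with hQd
      set Z : ℝ := ‖lw d n (z ^ m)‖ ^ 2 with hZd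
      have hQ0 : 0 ≤ Q := by positivity
      have h1c : 0 < (1 - c) ^ 2 := by have : 0 < 1 - c := by linarith
                                       positivity
      rw [le_div_iff₀ h1c]
      have u1 : Q * (1 - c) ^ 2 ≤ m * (1 + c) ^ 2 := by
        have : n * (Q * (1 - c) ^ 2) ≤ n * (m * (1 + c) ^ 2) := by
          calc (n:ℝ) * (Q * (1 - c) ^ 2) = Q * ((1 - c) ^ 2 * n) := by ring
            _ ≤ Q * Z := mul_le_mul_of_nonneg_left e2.1 hQ0
            _ ≤ (1 + c) ^ 2 * (m * n) := e1.2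
            _ = _ := by ring
        exact le_of_mul_le_mul_left this hnR
      have u2 : m * (1 - c) ^ 2 ≤ Q * (1 + c) ^ 2 := by
        have : n * (m * (1 - c) ^ 2) ≤ n * (Q * (1 + c) ^ 2) := by
          calc (n:ℝ) * (m * (1 - c) ^ 2) = (1 - c) ^ 2 * (m * n) := by ring
            _ ≤ Q * Z := e1.1
            _ ≤ Q * ((1 + c) ^ 2 * n) := mul_le_mul_of_nonneg_left e2.2 hQ0
            _ = _ := by ring
        exact le_of_mul_le_mul_left this hnR
      have habs : |Q - m| * (1 - c) ^ 2 = |(Q - m) * (1 - c) ^ 2| := by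
        rw [abs_mul, abs_of_pos h1c]
      rw [habs, abs_le]
      constructor
      · by_cases hQm : (m:ℝ) ≤ Q
        · have t1 : 0 ≤ (Q - m) * (1 - c) ^ 2 := mul_nonneg (by linarith) h1c.le
          have t2 : 0 ≤ 4 * m * c := by positivity
          linarith
        · have hQm' : Q < m := not_le.1 hQm
          have t1 : 0 ≤ c * (m - Q) := mul_nonneg hc0 (by linarith)
          nlinarith
      · nlinarith
    have h1 := dev hm hb hQ
    have h1c : 0 < (1 - c) ^ 2 := by have : 0 < 1 - c := by linarith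
                                     positivity
    rw [le_div_iff₀ h1c] at h1
    linarith

theorem halves {c : ℝ} (hc0 : 0 ≤ c) (hc1 : c < 1) (a : ℕ → ℤ) (N : ℕ) (hN : 0 < N)
    (h : Flat c a (2 * N)) (h1 : Flat c a N) (h2 : Flat c (fun k => a (N + k)) N) :
    1 / 8 < c := by
  rw [two_mul] at h
  have e := concat hc0 hc1.le a N N hN h h1 h2
  have hNR : (0:ℝ) < N := by exact_mod_cast hN
  have hNN : (0:ℝ) < (N:ℝ) * N := by positivity
  have e1 : (1 - c) ^ 4 ≤ 32 * c ^ 2 := by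
    refine le_of_mul_le_mul_right ?_ hNN
    calc (1 - c) ^ 4 * ((N:ℝ) * N) ≤ _ := e
      _ = _ := by ring
  by_contra hc
  have hc' : c ≤ 1 / 8 := not_lt.1 hc
  have t1 : (7 / 8 : ℝ) ^ 4 ≤ (1 - c) ^ 4 := pow_le_pow_left₀ (by norm_num) (by linarith) 4
  have t2 : c ^ 2 ≤ (1 / 8 : ℝ) ^ 2 := pow_le_pow_left₀ hc0 hc' 2
  norm_num at t1 t2
  linarith

theorem lw_congr {a a' : ℕ → ℤ} {N : ℕ} (h : ∀ k < N, a k = a' k) (z : ℂ) :
    lw a N z = lw a' N z := by
  unfold lw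
  exact sum_congr rfl fun k hk => by rw [h k (mem_range.1 hk)]

end Vale.Agent.P110.Unions
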