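import Vale.Agent.Lib.P110.Unions1

/-! P110: a flat polynomial is not a concatenation of boundedly many flat blocks. -/

namespace Vale.Agent.P110.Unions

open Finset Complex

/-- on the circle, a polynomial of degree at most `T` without constant term -/
def PosF (T : ℕ) (f : ℂ → ℂ) : Prop :=
  ∃ p : Polynomial ℂ, p.coeff 0 = 0 ∧ p.natDegree ≤ T ∧ ∀ z : ℂ, ‖z‖ = 1 → f z = p.eval z

theorem PosF.congr {T : ℕ} {f g : ℂ → ℂ} (hf : PosF T f) (h : ∀ z : ℂ, ‖z‖ = 1 → g z = f z) :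
    PosF T g := by
  obtain ⟨p, p0, p1, p2⟩ := hf
  exact ⟨p, p0, p1, fun z hz => by rw [h z hz, p2 z hz]⟩

theorem PosF.mul {S T : ℕ} {f g : ℂ → ℂ} (hf : PosF S f) (hg : PosF T g) :
    PosF (S + T) (fun z => f z * g z) := by
  obtain ⟨p, p0, p1, p2⟩ := hf
  obtain ⟨q, q0, q1, q2⟩ := hg
  refine ⟨p * q, ?_, ?_, ?_⟩
  · rw [Polynomial.mul_coeff_zero, p0, zero_mul]
  · exact Polynomial.natDegree_mul_le.trans (add_le_add p1 q1)
  · intro z hz
    show f z * g z = _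
    rw [Polynomial.eval_mul, p2 z hz, q2 z hz]

theorem PosF.sum {ι : Type} (s : Finset ι) {T : ℕ} {f : ι → ℂ → ℂ} (h : ∀ i ∈ s, PosF T (f i)) :
    PosF T (fun z => ∑ i ∈ s, f i z) := by
  classical
  choose! p hp using h
  refine ⟨∑ i ∈ s, p i, ?_, ?_, ?_⟩
  · rw [Polynomial.finsetSum_coeff]; exact sum_eq_zero fun i hi => (hp i hi).1
  · exact Polynomial.natDegree_sum_le_of_forall_le s _ fun i hi => (hp i hi).2.1
  · intro z hz
    show ∑ i ∈ s, f i z = _
    rw [Polynomial.eval_finsetSum]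
    exact sum_congr rfl fun i hi => (hp i hi).2.2 z hz

theorem PosF.term (c : ℂ) {e T : ℕ} (he : 0 < e) (heT : e ≤ T) : PosF T (fun z => c * z ^ e) := by
  refine ⟨Polynomial.C c * Polynomial.X ^ e, ?_, (Polynomial.natDegree_C_mul_X_pow_le c e).trans heT,
    fun z _ => by simp⟩
  rw [Polynomial.coeff_C_mul, Polynomial.coeff_X_pow, if_neg he.ne, mul_zero]

theorem PosF.mean {T : ℕ} {f : ℂ → ℂ} (h : PosF T f) {K : ℕ} (hK : T < K) :
    ∑ j ∈ range K, f ((exp (2 * Real.pi * I / (K : ℂ))) ^ j) = 0 := by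
  obtain ⟨p, p0, p1, p2⟩ := h
  have e1 : ∑ j ∈ range K, f ((exp (2 * Real.pi * I / (K : ℂ))) ^ j) =
      ∑ e ∈ range K, p.coeff e * ∑ j ∈ range K, ((exp (2 * Real.pi * I / (K : ℂ))) ^ j) ^ e := by
    simp only [mul_sum]
    rw [sum_comm]
    refine sum_congr rfl fun j _ => ?_
    rw [p2 _ (norm_root K j), Polynomial.eval_eq_sum_range' (lt_of_le_of_lt p1 hK)]
  rw [e1]
  refine sum_eq_zero fun e he => ?_
  rcases Nat.eq_zero_or_pos e with h0 | h0
  · rw [h0, p0, zero_mul]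
  · rw [sum_root h0 (mem_range.1 he), mul_zero]

theorem cross' (a b : ℕ → ℤ) (N M D : ℕ) (hD : N ≤ D) :
    PosF (D + M) (fun z => z ^ D * lw b M z * (starRingEnd ℂ) (lw a N z)) := by
  have h1 : PosF (D + M) (fun z => ∑ p ∈ range M ×ˢ range N,
      ((b p.1 : ℂ) * (a p.2 : ℂ)) * z ^ (D + p.1 - p.2)) := by
    refine PosF.sum _ fun p hp => ?_
    have hp' := mem_product.1 hp
    have u1 := mem_range.1 hp'.1
    have u2 := mem_range.1 hp'.2
    exact PosF.term _ (by omega) (by omega)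
  refine h1.congr fun z hz => ?_
  unfold lw
  rw [map_sum, mul_assoc, sum_mul_sum, mul_sum, sum_product]
  refine sum_congr rfl fun l hl => ?_
  rw [mul_sum]
  refine sum_congr rfl fun k hk => ?_
  have hk' : k < N := mem_range.1 hk
  rw [map_mul, ← conj_pow_mul hz (show k ≤ D + l by omega), pow_add]
  simp only [map_intCast]
  ring

/-- the block number `i` of length `n` -/
noncomputable def blk (a : ℕ → ℤ) (n i : ℕ) (z : ℂ) : ℂ :=
  z ^ (i * n) * lw (fun k => a (i * n + k)) n z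

theorem lw_blk (a : ℕ → ℤ) (m n : ℕ) (z : ℂ) : lw a (m * n) z = ∑ i ∈ range m, blk a n i z := by
  induction m with
  | zero => simp [lw]
  | succ m ih => rw [sum_range_succ, ← ih, Nat.succ_mul, lw_add]; rfl

theorem blk_norm (a : ℕ → ℤ) (n i : ℕ) {z : ℂ} (hz : ‖z‖ = 1) :
    ‖blk a n i z‖ = ‖lw (fun k => a (i * n + k)) n z‖ := by
  unfold blk
  rw [norm_mul, norm_pow, hz, one_pow, one_mul]

theorem blk_pos (a : ℕ → ℤ) (m n : ℕ) {i j : ℕ} (hij : i < j) (hj : j < m) :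
    PosF (m * n) (fun z => blk a n j z * (starRingEnd ℂ) (blk a n i z)) := by
  obtain ⟨d, rfl⟩ : ∃ d, j = i + 1 + d := ⟨j - (i + 1), by omega⟩
  have hle : n ≤ (1 + d) * n := Nat.le_mul_of_pos_left n (by omega)
  have h1 := cross' (fun k => a (i * n + k)) (fun k => a ((i + 1 + d) * n + k)) n n ((1 + d) * n) hle
  obtain ⟨p, p0, p1, p2⟩ := h1
  have hb : (1 + d) * n + n ≤ m * n := by
    have : (1 + d + 1) * n ≤ m * n := Nat.mul_le_mul_right n (by omega)
    linarith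
  refine ⟨p, p0, p1.trans hb, fun z hz => ?_⟩
  rw [← p2 z hz]
  unfold blk
  have e : z ^ ((i + 1 + d) * n) * (starRingEnd ℂ) (z ^ (i * n)) = z ^ ((1 + d) * n) := by
    rw [conj_pow_mul hz (Nat.mul_le_mul_right n (by omega))]
    congr 1
    have : (i + 1 + d) * n = i * n + (1 + d) * n := by ring
    omega
  beta_reduce
  rw [map_mul, ← e]
  ring

theorem sq_expand (u : ℕ → ℂ) (m : ℕ) :
    ‖∑ i ∈ range m, u i‖ ^ 2 = ∑ i ∈ range m, ‖u i‖ ^ 2 +
      2 * (∑ j ∈ range m, ∑ i ∈ range j, u j * (starRingEnd ℂ) (u i)).re := by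
  induction m with
  | zero => simp
  | succ m ih =>
    rw [sum_range_succ, sum_range_succ, sum_range_succ, ← mul_sum, ← map_sum, Complex.add_re]
    set S : ℂ := ∑ i ∈ range m, u i
    have e : ‖S + u m‖ ^ 2 = ‖S‖ ^ 2 + ‖u m‖ ^ 2 + 2 * (u m * (starRingEnd ℂ) S).re := by
      rw [← Complex.normSq_eq_norm_sq, ← Complex.normSq_eq_norm_sq, ← Complex.normSq_eq_norm_sq,
        Complex.normSq_add, ← Complex.conj_re (S * (starRingEnd ℂ) (u m)), map_mul,
        Complex.conj_conj]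
      ring_nf
    rw [e, ih]
    ring

theorem flat_sq {c : ℝ} (hc0 : 0 ≤ c) (hc1 : c ≤ 1) {a : ℕ → ℤ} {N : ℕ} (h : Flat c a N) {z : ℂ}
    (hz : ‖z‖ = 1) : (1 - c) ^ 2 * N ≤ ‖lw a N z‖ ^ 2 ∧ |‖lw a N z‖ ^ 2 - N| ≤ 3 * c * N := by
  have e := h z hz
  have hs : Real.sqrt (N : ℝ) ^ 2 = N := Real.sq_sqrt (Nat.cast_nonneg _)
  have h0 : 0 ≤ (1 - c) * Real.sqrt (N : ℝ) := mul_nonneg (by linarith) (Real.sqrt_nonneg _)
  have hN : (0:ℝ) ≤ N := Nat.cast_nonneg _
  have e1 : (1 - c) ^ 2 * N ≤ ‖lw a N z‖ ^ 2 := by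
    calc (1 - c) ^ 2 * N = ((1 - c) * Real.sqrt (N : ℝ)) ^ 2 := by rw [mul_pow, hs]
      _ ≤ _ := pow_le_pow_left₀ h0 e.1 2
  have e2 : ‖lw a N z‖ ^ 2 ≤ (1 + c) ^ 2 * N := by
    calc ‖lw a N z‖ ^ 2 ≤ ((1 + c) * Real.sqrt (N : ℝ)) ^ 2 :=
            pow_le_pow_left₀ (norm_nonneg _) e.2 2
      _ = _ := by rw [mul_pow, hs]
  have t1 : 0 ≤ c * N := mul_nonneg hc0 hN
  have t2 : 0 ≤ c * (1 - c) * N := mul_nonneg (mul_nonneg hc0 (by linarith)) hN
  have t3 : 0 ≤ c ^ 2 * N := by positivity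
  refine ⟨e1, abs_le.2 ⟨by nlinarith, by nlinarith⟩⟩

theorem wt {c B : ℝ} (n T K : ℕ) (hK : T < K) {F : ℂ → ℂ} (hF : PosF T F) (r : ℂ → ℝ)
    (hr : ∀ z : ℂ, ‖z‖ = 1 → |r z - n| ≤ c) (hB : ∀ z : ℂ, ‖z‖ = 1 → ‖F z‖ ≤ B) :
    ‖∑ t ∈ range K, (r ((exp (2 * Real.pi * I / (K : ℂ))) ^ t) : ℂ) *
      F ((exp (2 * Real.pi * I / (K : ℂ))) ^ t)‖ ≤ K * (c * B) := by
  have e : ∑ t ∈ range K, (r ((exp (2 * Real.pi * I / (K : ℂ))) ^ t) : ℂ) *
      F ((exp (2 * Real.pi * I / (K : ℂ))) ^ t) =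
      ∑ t ∈ range K, ((r ((exp (2 * Real.pi * I / (K : ℂ))) ^ t) - n : ℝ) : ℂ) *
      F ((exp (2 * Real.pi * I / (K : ℂ))) ^ t) +
      (n : ℂ) * ∑ t ∈ range K, F ((exp (2 * Real.pi * I / (K : ℂ))) ^ t) := by
    rw [mul_sum, ← sum_add_distrib]
    refine sum_congr rfl fun t _ => ?_
    push_cast
    ring
  rw [e, hF.mean hK, mul_zero, add_zero]
  refine (norm_sum_le _ _).trans ?_
  calc ∑ t ∈ range K, ‖((r ((exp (2 * Real.pi * I / (K : ℂ))) ^ t) - n : ℝ) : ℂ) *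
      F ((exp (2 * Real.pi * I / (K : ℂ))) ^ t)‖ ≤ ∑ _t ∈ range K, c * B := by
        refine sum_le_sum fun t _ => ?_
        rw [norm_mul, Complex.norm_real, Real.norm_eq_abs]
        exact mul_le_mul (hr _ (norm_root K t)) (hB _ (norm_root K t)) (norm_nonneg _)
          ((abs_nonneg _).trans (hr _ (norm_root K t)))
    _ = _ := by simp

theorem blocks {c : ℝ} (hc0 : 0 ≤ c) (hc1 : c ≤ 1) (a : ℕ → ℤ) (m n : ℕ) (hm : 2 ≤ m) (hn : 0 < n)
    (h : Flat c a (m * n)) (h1 : ∀ i < m, Flat c (fun k => a (i * n + k)) n) :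
    (1 - c) ^ 4 ≤ 24 * m ^ 2 * c := by
  set K : ℕ := m * n + m * n + 1 with hK
  have hmR : (2:ℝ) ≤ m := by exact_mod_cast hm
  have hnR : (0:ℝ) < n := by exact_mod_cast hn
  have hKR : (0:ℝ) < K := by rw [hK]; positivity
  set w : ℕ → ℂ := fun t => (exp (2 * Real.pi * I / (K : ℂ))) ^ t with hw
  have hwn : ∀ t, ‖w t‖ = 1 := fun t => norm_root K t
  have hU : ∀ i < m, ∀ z : ℂ, ‖z‖ = 1 → |‖blk a n i z‖ ^ 2 - n| ≤ 3 * c * n := by
    intro i hi z hz
    rw [blk_norm a n i hz]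
    exact (flat_sq hc0 hc1 (h1 i hi) hz).2
  have hUl : ∀ i < m, ∀ z : ℂ, ‖z‖ = 1 → (1 - c) ^ 2 * n ≤ ‖blk a n i z‖ ^ 2 := by
    intro i hi z hz
    rw [blk_norm a n i hz]
    exact (flat_sq hc0 hc1 (h1 i hi) hz).1
  have hU2 : ∀ i < m, ∀ z : ℂ, ‖z‖ = 1 → ‖blk a n i z‖ ^ 2 ≤ 4 * n := by
    intro i hi z hz
    have e := (abs_le.1 (hU i hi z hz)).2
    nlinarith
  have hUU : ∀ i < m, ∀ j < m, ∀ z : ℂ, ‖z‖ = 1 →
      ‖blk a n j z * (starRingEnd ℂ) (blk a n i z)‖ ≤ 4 * n := by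
    intro i hi j hj z hz
    rw [norm_mul, RCLike.norm_conj]
    have e1 := hU2 i hi z hz
    have e2 := hU2 j hj z hz
    nlinarith [sq_nonneg (‖blk a n i z‖ - ‖blk a n j z‖)]
  set G : ℂ → ℂ := fun z => ∑ j ∈ range m, ∑ i ∈ range j,
    blk a n j z * (starRingEnd ℂ) (blk a n i z) with hG
  have hGp : PosF (m * n) G := PosF.sum (range m) fun j hj => PosF.sum (range j) fun i hi =>
    blk_pos a m n (mem_range.1 hi) (mem_range.1 hj)
  have hGr : ∀ z : ℂ, ‖z‖ = 1 → |(G z).re| ≤ 3 * c * (m * n) := by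
    intro z hz
    have e0 := sq_expand (fun i => blk a n i z) m
    rw [← lw_blk] at e0
    have e1 := (flat_sq hc0 hc1 h hz).2
    have e2 : |∑ i ∈ range m, ‖blk a n i z‖ ^ 2 - m * n| ≤ 3 * c * (m * n) := by
      have : ∑ i ∈ range m, ‖blk a n i z‖ ^ 2 - m * n =
          ∑ i ∈ range m, (‖blk a n i z‖ ^ 2 - n) := by
        rw [sum_sub_distrib]; simp
      rw [this]
      refine (abs_sum_le_sum_abs _ _).trans ?_
      calc ∑ i ∈ range m, |‖blk a n i z‖ ^ 2 - n| ≤ ∑ _i ∈ range m, 3 * c * n :=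
            sum_le_sum fun i hi => hU i (mem_range.1 hi) z hz
        _ = _ := by simp; ring
    push_cast at e1
    have e3 := abs_le.1 e1
    have e4 := abs_le.1 e2
    refine abs_le.2 ⟨?_, ?_⟩ <;> simp only [hG] <;> linarith
  have hG2 : ∑ t ∈ range K, G (w t) * G (w t) = 0 := (hGp.mul hGp).mean (by omega)
  have hGs : ∑ t ∈ range K, ‖G (w t)‖ ^ 2 ≤ 2 * K * (3 * c * (m * n)) ^ 2 := by
    have e1 : ∑ t ∈ range K, ((G (w t)).re ^ 2 - (G (w t)).im ^ 2) = 0 := by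
      have := congrArg Complex.re hG2
      rw [Complex.re_sum] at this
      simp only [Complex.mul_re, Complex.zero_re] at this
      rw [← this]
      exact sum_congr rfl fun t _ => by ring
    have e2 : ∑ t ∈ range K, ‖G (w t)‖ ^ 2 = 2 * ∑ t ∈ range K, (G (w t)).re ^ 2 := by
      have e3 : ∑ t ∈ range K, ‖G (w t)‖ ^ 2 =
          ∑ t ∈ range K, (2 * (G (w t)).re ^ 2 - ((G (w t)).re ^ 2 - (G (w t)).im ^ 2)) := by
        refine sum_congr rfl fun t _ => ?_
        rw [← Complex.normSq_eq_norm_sq, Complex.normSq_apply]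
        ring
      rw [e3, sum_sub_distrib, e1, sub_zero, mul_sum]
    rw [e2]
    have e4 : ∑ t ∈ range K, (G (w t)).re ^ 2 ≤ ∑ _t ∈ range K, (3 * c * (m * n)) ^ 2 := by
      refine sum_le_sum fun t _ => ?_
      rw [← sq_abs (G (w t)).re]
      exact pow_le_pow_left₀ (abs_nonneg _) (hGr _ (hwn t)) 2
    have e5 : ∑ _t ∈ range K, (3 * c * (m * n)) ^ 2 = K * (3 * c * (m * n)) ^ 2 := by simp
    rw [e5] at e4
    linarith
  have hGn : ∑ t ∈ range K, ‖G (w t)‖ ≤ 2 * K * (3 * c * (m * n)) := by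
    have e1 : (∑ t ∈ range K, ‖G (w t)‖) ^ 2 ≤ K * ∑ t ∈ range K, ‖G (w t)‖ ^ 2 := by
      have := sq_sum_le_card_mul_sum_sq (s := range K) (f := fun t => ‖G (w t)‖)
      simpa using this
    have e0 : 0 ≤ 3 * c * (m * n) := by positivity
    refine abs_le_of_sq_le_sq' ?_ (by positivity) |>.2
    have e2 : (K:ℝ) * ∑ t ∈ range K, ‖G (w t)‖ ^ 2 ≤ K * (2 * K * (3 * c * (m * n)) ^ 2) :=
      mul_le_mul_of_nonneg_left hGs hKR.le
    have e3 : 0 ≤ ((K:ℝ) * (3 * c * (m * n))) ^ 2 := sq_nonneg _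
    nlinarith
  obtain ⟨q, rfl⟩ : ∃ q, m = q + 1 := ⟨m - 1, by omega⟩
  set X : ℂ → ℂ := fun z => blk a n q z * (starRingEnd ℂ) (blk a n 0 z) with hX
  set R : ℕ → ℕ → ℂ := fun i j => ∑ t ∈ range K,
    X (w t) * (starRingEnd ℂ) (blk a n j (w t)) * blk a n i (w t) with hR
  have hT : ∑ t ∈ range K, X (w t) * (starRingEnd ℂ) (G (w t)) =
      ∑ j ∈ range (q + 1), ∑ i ∈ range j, R i j := by
    have : ∀ j ∈ range (q + 1), ∑ i ∈ range j, R i j = ∑ t ∈ range K, ∑ i ∈ range j,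
        X (w t) * (starRingEnd ℂ) (blk a n j (w t)) * blk a n i (w t) := by
      intro j _
      rw [sum_comm]
    rw [sum_congr rfl this, sum_comm]
    refine sum_congr rfl fun t _ => ?_
    simp only [hG]
    rw [map_sum, mul_sum]
    refine sum_congr rfl fun j _ => ?_
    rw [map_sum, mul_sum]
    refine sum_congr rfl fun i _ => ?_
    rw [map_mul, Complex.conj_conj]
    ring
  have hTn : ‖∑ t ∈ range K, X (w t) * (starRingEnd ℂ) (G (w t))‖ ≤
      4 * n * (2 * K * (3 * c * ((q + 1 : ℕ) * n))) := by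
    refine (norm_sum_le _ _).trans ?_
    calc ∑ t ∈ range K, ‖X (w t) * (starRingEnd ℂ) (G (w t))‖
        ≤ ∑ t ∈ range K, 4 * n * ‖G (w t)‖ := by
          refine sum_le_sum fun t _ => ?_
          rw [norm_mul, RCLike.norm_conj]
          exact mul_le_mul_of_nonneg_right (hUU 0 (by omega) q (by omega) _ (hwn t))
            (norm_nonneg _)
      _ = 4 * n * ∑ t ∈ range K, ‖G (w t)‖ := by rw [mul_sum]
      _ ≤ _ := mul_le_mul_of_nonneg_left hGn (by positivity)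
  have hsq : ∀ x : ℂ, x * (starRingEnd ℂ) x = ((‖x‖ ^ 2 : ℝ) : ℂ) := by
    intro x
    rw [Complex.mul_conj, Complex.normSq_eq_norm_sq]
  have hRb : ∀ j < q + 1, ∀ i < j, ¬ (i = 0 ∧ j = q) → ‖R i j‖ ≤ K * (3 * c * n * (4 * n)) := by
    intro j hj i hi hne
    rcases Nat.eq_zero_or_pos i with hi0 | hi0
    · -- first block squared
      have hjq : j < q := by omega
      have e := wt (c := 3 * c * n) (B := 4 * n) n ((q + 1) * n) K (by omega)
        (blk_pos a (q + 1) n hjq (by omega)) (fun z => ‖blk a n 0 z‖ ^ 2)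
        (hU 0 (by omega)) (hUU j (by omega) q (by omega))
      refine le_trans (le_of_eq ?_) e
      congr 1
      refine sum_congr rfl fun t _ => ?_
      simp only [hX]
      rw [← hsq, hi0]
      ring
    · rcases Nat.lt_or_ge j q with hjq | hjq
      · -- zero
        have e := ((blk_pos a (q + 1) n hjq (by omega)).mul
          (blk_pos a (q + 1) n hi0 (show i < q + 1 by omega))).mean (K := K) (by omega)
        have e2 : R i j = 0 := by
          rw [← e]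
          refine sum_congr rfl fun t _ => ?_
          simp only [hX]
          ring
        rw [e2, norm_zero]
        positivity
      · have hjq' : j = q := by omega
        have e := wt (c := 3 * c * n) (B := 4 * n) n ((q + 1) * n) K (by omega)
          (blk_pos a (q + 1) n hi0 (show i < q + 1 by omega)) (fun z => ‖blk a n q z‖ ^ 2)
          (hU q (by omega)) (hUU 0 (by omega) i (by omega))
        refine le_trans (le_of_eq ?_) e
        congr 1
        refine sum_congr rfl fun t _ => ?_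
        simp only [hX]
        rw [← hsq, hjq']
        ring
  have hR0 : (K:ℝ) * ((1 - c) ^ 2 * n * ((1 - c) ^ 2 * n)) ≤ ‖R 0 q‖ := by
    have e : R 0 q = ((∑ t ∈ range K, ‖blk a n q (w t)‖ ^ 2 * ‖blk a n 0 (w t)‖ ^ 2 : ℝ) : ℂ) := by
      rw [Complex.ofReal_sum]
      refine sum_congr rfl fun t _ => ?_
      simp only [hX]
      rw [Complex.ofReal_mul, ← hsq, ← hsq]
      ring
    rw [e, Complex.norm_real, Real.norm_eq_abs]
    refine le_trans ?_ (le_abs_self _)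
    calc (K:ℝ) * ((1 - c) ^ 2 * n * ((1 - c) ^ 2 * n))
        = ∑ _t ∈ range K, ((1 - c) ^ 2 * n * ((1 - c) ^ 2 * n)) := by simp
      _ ≤ _ := by
        refine sum_le_sum fun t _ => ?_
        exact mul_le_mul (hUl q (by omega) _ (hwn t)) (hUl 0 (by omega) _ (hwn t))
          (by positivity) (by positivity)
  have hsplit : ∑ j ∈ range (q + 1), ∑ i ∈ range j, R i j = R 0 q +
      ∑ j ∈ range (q + 1), ∑ i ∈ range j, (if i = 0 ∧ j = q then 0 else R i j) := by
    have e1 : ∀ i j, R i j = (if i = 0 ∧ j = q then R 0 q else 0) +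
        (if i = 0 ∧ j = q then 0 else R i j) := by
      intro i j
      by_cases hh : i = 0 ∧ j = q
      · rw [if_pos hh, if_pos hh, hh.1, hh.2, add_zero]
      · rw [if_neg hh, if_neg hh, zero_add]
    have e2 : ∑ j ∈ range (q + 1), ∑ i ∈ range j, (if i = 0 ∧ j = q then R 0 q else 0) = R 0 q := by
      rw [sum_eq_single q, sum_eq_single 0]
      · simp
      · intro i _ hi; rw [if_neg]; tauto
      · intro hh; exact absurd (mem_range.2 (by omega)) hh
      · intro j _ hj; exact sum_eq_zero fun i _ => if_neg (by tauto)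
      · intro hh; exact absurd (mem_range.2 (by omega)) hh
    calc ∑ j ∈ range (q + 1), ∑ i ∈ range j, R i j
        = ∑ j ∈ range (q + 1), ∑ i ∈ range j, ((if i = 0 ∧ j = q then R 0 q else 0) +
            (if i = 0 ∧ j = q then 0 else R i j)) :=
          sum_congr rfl fun j _ => sum_congr rfl fun i _ => e1 i j
      _ = _ := by simp only [sum_add_distrib]; rw [e2]
  have hrest : ‖∑ j ∈ range (q + 1), ∑ i ∈ range j, (if i = 0 ∧ j = q then 0 else R i j)‖ ≤
      ((q + 1 : ℕ) : ℝ) * ((q + 1 : ℕ) * (K * (3 * c * n * (4 * n)))) := by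
    refine (norm_sum_le _ _).trans ?_
    have hBn : 0 ≤ (K:ℝ) * (3 * c * n * (4 * n)) := by positivity
    calc ∑ j ∈ range (q + 1), ‖∑ i ∈ range j, (if i = 0 ∧ j = q then 0 else R i j)‖
        ≤ ∑ _j ∈ range (q + 1), (((q + 1 : ℕ) : ℝ) * (K * (3 * c * n * (4 * n)))) := by
          refine sum_le_sum fun j hj => ?_
          refine (norm_sum_le _ _).trans ?_
          calc ∑ i ∈ range j, ‖(if i = 0 ∧ j = q then 0 else R i j)‖
              ≤ ∑ _i ∈ range j, ((K:ℝ) * (3 * c * n * (4 * n))) := by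
                refine sum_le_sum fun i hi => ?_
                by_cases hh : i = 0 ∧ j = q
                · rw [if_pos hh, norm_zero]; exact hBn
                · rw [if_neg hh]
                  exact hRb j (mem_range.1 hj) i (mem_range.1 hi) hh
            _ = (j:ℝ) * (K * (3 * c * n * (4 * n))) := by simp
            _ ≤ _ := by
                refine mul_le_mul_of_nonneg_right ?_ hBn
                exact_mod_cast (mem_range.1 hj).le
      _ = _ := by simp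
  have hfin : ‖R 0 q‖ ≤ 4 * n * (2 * K * (3 * c * ((q + 1 : ℕ) * n))) +
      ((q + 1 : ℕ) : ℝ) * ((q + 1 : ℕ) * (K * (3 * c * n * (4 * n)))) := by
    have e : R 0 q = (∑ t ∈ range K, X (w t) * (starRingEnd ℂ) (G (w t))) -
        ∑ j ∈ range (q + 1), ∑ i ∈ range j, (if i = 0 ∧ j = q then 0 else R i j) := by
      rw [hT, hsplit]; ring
    rw [e]
    exact (norm_sub_le _ _).trans (add_le_add hTn hrest)
  set M : ℝ := ((q + 1 : ℕ) : ℝ) with hM
  have hall := hR0.trans hfin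
  have hKn : (0:ℝ) < K * (n * n) := by positivity
  refine le_of_mul_le_mul_left ?_ hKn
  have t1 : 0 ≤ c * (M * (M - 2)) := mul_nonneg hc0 (mul_nonneg (by linarith) (by linarith))
  have t2 : 0 ≤ (K:ℝ) * (n * n) * (c * (M * (M - 2))) := mul_nonneg hKn.le t1
  nlinarith

end Vale.Agent.P110.Unions
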