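import Vale.Agent.Lib.P110.Unions2

/-! P110: a flat polynomial is not an interleaving of flat polynomials. -/

namespace Vale.Agent.P110.Unions

open Finset Complex

theorem parity (p : ℕ → ℤ) (k : ℕ) (hp : ∀ r < k, p r = 1 ∨ p r = -1) :
    (∃ t : ℤ, ∑ r ∈ range k, p r - k - ∏ r ∈ range k, p r + 1 = 4 * t) ∧
      (∏ r ∈ range k, p r = 1 ∨ ∏ r ∈ range k, p r = -1) := by
  induction k with
  | zero => exact ⟨⟨0, by simp⟩, by simp⟩
  | succ k ih =>
    obtain ⟨⟨t, ht⟩, h2⟩ := ih fun r hr => hp r (by omega)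
    rw [sum_range_succ, prod_range_succ]
    push_cast
    rcases hp k (by omega) with h | h <;> rcases h2 with h3 | h3 <;> rw [h, h3] <;>
      rw [h3] at ht <;> refine ⟨?_, by simp⟩
    · exact ⟨t, by linarith⟩
    · exact ⟨t, by linarith⟩
    · exact ⟨t, by linarith⟩
    · exact ⟨t - 1, by linarith⟩

theorem tele (s : ℕ → ℤ) (hs : ∀ r, s r = 1 ∨ s r = -1) (q : ℕ) :
    ∏ r ∈ range q, (s (r + 1) * s r) = s q * s 0 := by
  induction q with
  | zero => rcases hs 0 with h | h <;> simp [h]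
  | succ q ih =>
    rw [prod_range_succ, ih]
    rcases hs q with h | h <;> rw [h] <;> ring

theorem lw_dec (a : ℕ → ℤ) (m n : ℕ) (z : ℂ) :
    lw a (m * n) z = ∑ r ∈ range m, z ^ r * lw (fun k => a (r + m * k)) n (z ^ m) := by
  unfold lw
  rw [sum_decim]
  refine sum_congr rfl fun r _ => ?_
  rw [mul_sum]
  refine sum_congr rfl fun k _ => ?_
  rw [pow_add, pow_mul]
  ring

/-- the cyclic (or negacyclic) correlation at distance one -/
theorem corr {z0 e : ℂ} (hz : ‖z0‖ = 1) (q : ℕ) (he : z0 ^ (q + 1) = e) (hee : e * e = 1)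
    (x : ℕ → ℤ) :
    ∑ s ∈ range (q + 1), (starRingEnd ℂ) (z0 * (exp (2 * Real.pi * I / ((q + 1 : ℕ) : ℂ))) ^ s) *
      ((‖∑ r ∈ range (q + 1), (z0 * (exp (2 * Real.pi * I / ((q + 1 : ℕ) : ℂ))) ^ s) ^ r * (x r : ℂ)‖
        ^ 2 : ℝ) : ℂ) =
      ((q + 1 : ℕ) : ℂ) * (∑ r ∈ range q, (x (r + 1) : ℂ) * x r + e * (x 0 * x q)) := by
  set w : ℂ := exp (2 * Real.pi * I / ((q + 1 : ℕ) : ℂ)) with hw
  have hwn : ∀ s : ℕ, ‖z0 * w ^ s‖ = 1 := by
    intro s; rw [norm_mul, hz, one_mul]; exact norm_root (q + 1) s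
  have hm : ∀ s : ℕ, (z0 * w ^ s) ^ (q + 1) = e := by
    intro s; rw [mul_pow, he, root_pow (q + 1) (by omega) s, mul_one]
  have hcj : ∀ s : ℕ, ∀ j ≤ q + 1, (starRingEnd ℂ) ((z0 * w ^ s) ^ j) =
      e * (z0 * w ^ s) ^ (q + 1 - j) := by
    intro s j hj
    rw [← conj_pow_mul (hwn s) hj, hm s, ← mul_assoc, hee, one_mul]
  set W : ℕ → ℂ := fun E => ∑ s ∈ range (q + 1), e * (z0 * w ^ s) ^ E with hW
  have hW1 : ∀ E, W E = e * (z0 ^ E * ∑ s ∈ range (q + 1), (w ^ s) ^ E) := by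
    intro E
    rw [hW, mul_sum, mul_sum]
    exact sum_congr rfl fun s _ => by rw [mul_pow]
  have hW0 : W 0 = e * (q + 1 : ℕ) := by rw [hW1]; simp
  have hWm : W (q + 1) = (q + 1 : ℕ) := by
    rw [hW1, he, sum_root2 (by omega) (by omega) (by omega), if_pos rfl, ← mul_assoc, hee, one_mul]
  have hWz : ∀ E, 0 < E → E < 2 * (q + 1) → E ≠ q + 1 → W E = 0 := by
    intro E h1 h2 h3
    rw [hW1, sum_root2 (by omega) h1 h2, if_neg h3, mul_zero, mul_zero]
  have h1 : ∀ s ∈ range (q + 1), (starRingEnd ℂ) (z0 * w ^ s) *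
      ((‖∑ r ∈ range (q + 1), (z0 * w ^ s) ^ r * (x r : ℂ)‖ ^ 2 : ℝ) : ℂ) =
      ∑ t ∈ range (q + 1), ∑ r ∈ range (q + 1),
        (x t : ℂ) * x r * (e * (z0 * w ^ s) ^ (r + (q + 1 - (t + 1)))) := by
    intro s _
    rw [← Complex.normSq_eq_norm_sq, ← Complex.mul_conj, map_sum, sum_mul_sum, sum_comm, mul_sum]
    simp only [mul_sum]
    refine sum_congr rfl fun t ht => sum_congr rfl fun r _ => ?_
    have ht' := mem_range.1 ht
    have e1 := hcj s (t + 1) (by omega)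
    generalize z0 * w ^ s = z at e1 ⊢
    have e3 : e * z ^ (r + (q + 1 - (t + 1))) = z ^ r * (starRingEnd ℂ) (z ^ (t + 1)) := by
      rw [e1, pow_add]; ring
    have e4 : (starRingEnd ℂ) ((x t : ℤ) : ℂ) = (x t : ℂ) := map_intCast _ _
    rw [e3, pow_succ, map_mul, map_mul, e4]
    ring
  rw [sum_congr rfl h1, sum_comm]
  have h2 : ∀ t ∈ range (q + 1), ∑ s ∈ range (q + 1), ∑ r ∈ range (q + 1),
        (x t : ℂ) * x r * (e * (z0 * w ^ s) ^ (r + (q + 1 - (t + 1)))) =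
      (x t : ℂ) * ∑ r ∈ range (q + 1), x r * W (r + (q + 1 - (t + 1))) := by
    intro t _
    rw [sum_comm, mul_sum]
    refine sum_congr rfl fun r _ => ?_
    rw [hW]
    simp only [mul_sum]
    exact sum_congr rfl fun s _ => by ring
  rw [sum_congr rfl h2, sum_range_succ]
  have h3 : ∑ r ∈ range (q + 1), (x r : ℂ) * W (r + (q + 1 - (q + 1))) = x 0 * (e * (q + 1 : ℕ)) := by
    rw [sum_eq_single 0]
    · rw [← hW0]; simp
    · intro r hr hr0
      have := mem_range.1 hr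
      rw [hWz _ (by omega) (by omega) (by omega), mul_zero]
    · intro hh; exact absurd (mem_range.2 (by omega)) hh
  have h4 : ∀ t ∈ range q, (x t : ℂ) * ∑ r ∈ range (q + 1), (x r : ℂ) * W (r + (q + 1 - (t + 1))) =
      ((q + 1 : ℕ) : ℂ) * (x (t + 1) * x t) := by
    intro t ht
    have ht' := mem_range.1 ht
    rw [sum_eq_single (t + 1)]
    · have : t + 1 + (q + 1 - (t + 1)) = q + 1 := by omega
      rw [this, hWm]; ring
    · intro r hr hr0
      have := mem_range.1 hr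
      rw [hWz _ (by omega) (by omega) (by omega), mul_zero]
    · intro hh; exact absurd (mem_range.2 (by omega)) hh
  rw [h3, sum_congr rfl h4, ← mul_sum]
  ring

/-- the value of the decimations at a sign, through one correlation -/
theorem corr_bound {c : ℝ} (hc0 : 0 ≤ c) (hc1 : c ≤ 1) (a : ℕ → ℤ) (q n : ℕ) (hq : 1 ≤ q)
    (h : Flat c a ((q + 1) * n)) (e : ℤ) (he : e = 1 ∨ e = -1) (z0 : ℂ) (hz : ‖z0‖ = 1)
    (hze : z0 ^ (q + 1) = (e : ℂ)) (x : ℕ → ℤ)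
    (hx : ∀ r, (x r : ℂ) = lw (fun k => a (r + (q + 1) * k)) n (e : ℂ)) :
    |((∑ r ∈ range q, x (r + 1) * x r + e * (x 0 * x q) : ℤ) : ℝ)| ≤
      3 * c * (((q + 1 : ℕ) : ℝ) * n) := by
  have hee : (e : ℂ) * e = 1 := by rcases he with h0 | h0 <;> rw [h0] <;> simp
  have hc := corr hz q hze hee x
  set w : ℂ := exp (2 * Real.pi * I / ((q + 1 : ℕ) : ℂ)) with hw
  have hwn : ∀ s : ℕ, ‖z0 * w ^ s‖ = 1 := by
    intro s; rw [norm_mul, hz, one_mul]; exact norm_root (q + 1) s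
  have hm : ∀ s : ℕ, (z0 * w ^ s) ^ (q + 1) = (e : ℂ) := by
    intro s; rw [mul_pow, hze, root_pow (q + 1) (by omega) s, mul_one]
  have hP : ∀ s : ℕ, ∑ r ∈ range (q + 1), (z0 * w ^ s) ^ r * (x r : ℂ) =
      lw a ((q + 1) * n) (z0 * w ^ s) := by
    intro s
    rw [lw_dec, hm s]
    exact sum_congr rfl fun r _ => by rw [hx r]
  have hmean : ∑ s ∈ range (q + 1), (starRingEnd ℂ) (z0 * w ^ s) = 0 := by
    rw [← map_sum, ← mul_sum]
    have := sum_root (K := q + 1) (e := 1) (by omega) (by omega)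
    simp only [pow_one] at this
    rw [this, mul_zero, map_zero]
  have hQ : (0:ℝ) < ((q + 1 : ℕ) : ℝ) := by positivity
  have h2 : ((q + 1 : ℕ) : ℂ) * (((∑ r ∈ range q, x (r + 1) * x r + e * (x 0 * x q) : ℤ) : ℝ) : ℂ) =
      ∑ s ∈ range (q + 1), (starRingEnd ℂ) (z0 * w ^ s) *
        ((‖lw a ((q + 1) * n) (z0 * w ^ s)‖ ^ 2 - (((q + 1) * n : ℕ) : ℝ) : ℝ) : ℂ) := by
    have e1 : ∑ s ∈ range (q + 1), (starRingEnd ℂ) (z0 * w ^ s) *
        ((‖lw a ((q + 1) * n) (z0 * w ^ s)‖ ^ 2 - (((q + 1) * n : ℕ) : ℝ) : ℝ) : ℂ) =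
        ∑ s ∈ range (q + 1), (starRingEnd ℂ) (z0 * w ^ s) *
        ((‖∑ r ∈ range (q + 1), (z0 * w ^ s) ^ r * (x r : ℂ)‖ ^ 2 : ℝ) : ℂ) -
        (∑ s ∈ range (q + 1), (starRingEnd ℂ) (z0 * w ^ s)) * ((((q + 1) * n : ℕ) : ℝ) : ℂ) := by
      rw [sum_mul, ← sum_sub_distrib]
      refine sum_congr rfl fun s _ => ?_
      rw [hP s]
      push_cast
      ring
    rw [e1, hmean, zero_mul, sub_zero, hc]
    push_cast
    ring
  have h3 : ((q + 1 : ℕ) : ℝ) * |((∑ r ∈ range q, x (r + 1) * x r + e * (x 0 * x q) : ℤ) : ℝ)| ≤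
      ((q + 1 : ℕ) : ℝ) * (3 * c * (((q + 1 : ℕ) : ℝ) * n)) := by
    have e2 := congrArg norm h2
    rw [norm_mul, Complex.norm_natCast, Complex.norm_real, Real.norm_eq_abs] at e2
    rw [e2]
    refine (norm_sum_le _ _).trans ?_
    calc ∑ s ∈ range (q + 1), ‖(starRingEnd ℂ) (z0 * w ^ s) *
        ((‖lw a ((q + 1) * n) (z0 * w ^ s)‖ ^ 2 - (((q + 1) * n : ℕ) : ℝ) : ℝ) : ℂ)‖
        ≤ ∑ _s ∈ range (q + 1), 3 * c * (((q + 1) * n : ℕ) : ℝ) := by
          refine sum_le_sum fun s _ => ?_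
          rw [norm_mul, RCLike.norm_conj, hwn s, one_mul, Complex.norm_real, Real.norm_eq_abs]
          exact (flat_sq hc0 hc1 h (hwn s)).2
      _ = _ := by simp
  exact le_of_mul_le_mul_left h3 hQ

/-- from the correlation to the signs -/
theorem signs {c : ℝ} (hc0 : 0 ≤ c) (hc1 : c ≤ 1) (a : ℕ → ℤ) (q n : ℕ) (hq : 1 ≤ q) (hn : 0 < n)
    (h : Flat c a ((q + 1) * n)) (h1 : ∀ r < q + 1, Flat c (fun k => a (r + (q + 1) * k)) n)
    (e : ℤ) (he : e = 1 ∨ e = -1) (z0 : ℂ) (hz : ‖z0‖ = 1) (hze : z0 ^ (q + 1) = (e : ℂ))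
    (hsmall : 6 * ((q + 1 : ℕ) : ℝ) * c < 1) :
    ∃ t : ℤ, -((q : ℤ) + 1) - e + 1 = 4 * t := by
  set x : ℕ → ℤ := fun r => ∑ k ∈ range n, a (r + (q + 1) * k) * e ^ k with hxd
  have hx : ∀ r, (x r : ℂ) = lw (fun k => a (r + (q + 1) * k)) n (e : ℂ) := by
    intro r
    unfold lw
    rw [hxd]
    push_cast
    rfl
  have hb := corr_bound hc0 hc1 a q n hq h e he z0 hz hze x hx
  have hnR : (0:ℝ) < n := by exact_mod_cast hn
  have hen : ‖(e : ℂ)‖ = 1 := by rcases he with h0 | h0 <;> rw [h0] <;> simp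
  have hxa : ∀ r < q + 1, |((x r : ℤ) : ℝ) ^ 2 - n| ≤ 3 * c * n ∧
      (1 - c) * Real.sqrt n ≤ |((x r : ℤ) : ℝ)| ∧ |((x r : ℤ) : ℝ)| ≤ (1 + c) * Real.sqrt n := by
    intro r hr
    have e1 := (flat_sq hc0 hc1 (h1 r hr) hen).2
    have e2 := h1 r hr (e : ℂ) hen
    rw [← hx r, Complex.norm_intCast] at e1 e2
    rw [sq_abs] at e1
    exact ⟨e1, e2⟩
  set s : ℕ → ℤ := fun r => if 0 ≤ x r then 1 else -1 with hs
  have hs1 : ∀ r, s r = 1 ∨ s r = -1 := by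
    intro r; simp only [hs]; split_ifs <;> simp
  have hsx : ∀ r, ((x r : ℤ) : ℝ) = s r * |((x r : ℤ) : ℝ)| := by
    intro r
    simp only [hs]
    split_ifs with h0
    · have : (0:ℝ) ≤ (x r : ℤ) := by exact_mod_cast h0
      rw [abs_of_nonneg this]; simp
    · have : ((x r : ℤ) : ℝ) < 0 := by exact_mod_cast not_le.1 h0
      rw [abs_of_neg this]; simp
  have hpair : ∀ r < q + 1, ∀ r' < q + 1,
      |(((x r : ℤ) : ℝ) * (x r' : ℤ)) - n * (s r * s r')| ≤ 3 * c * n := by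
    intro r hr r' hr'
    have e1 := (hxa r hr).2
    have e2 := (hxa r' hr').2
    have hsq : Real.sqrt (n : ℝ) * Real.sqrt (n : ℝ) = n := Real.mul_self_sqrt hnR.le
    have hab : |(|((x r : ℤ) : ℝ)| * |((x r' : ℤ) : ℝ)|) - n| ≤ 3 * c * n := by
      have l1 : (1 - c) * Real.sqrt n * ((1 - c) * Real.sqrt n) ≤
          |((x r : ℤ) : ℝ)| * |((x r' : ℤ) : ℝ)| :=
        mul_le_mul e1.1 e2.1 (mul_nonneg (by linarith) (Real.sqrt_nonneg _)) (abs_nonneg _)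
      have l2 : |((x r : ℤ) : ℝ)| * |((x r' : ℤ) : ℝ)| ≤
          (1 + c) * Real.sqrt n * ((1 + c) * Real.sqrt n) :=
        mul_le_mul e1.2 e2.2 (abs_nonneg _) (mul_nonneg (by linarith) (Real.sqrt_nonneg _))
      have l3 : (1 - c) * Real.sqrt n * ((1 - c) * Real.sqrt n) = (1 - c) ^ 2 * n := by
        linear_combination (1 - c) ^ 2 * hsq
      have l4 : (1 + c) * Real.sqrt n * ((1 + c) * Real.sqrt n) = (1 + c) ^ 2 * n := by
        linear_combination (1 + c) ^ 2 * hsq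
      rw [l3] at l1
      rw [l4] at l2
      have t1 : 0 ≤ c * n := mul_nonneg hc0 hnR.le
      have t2 : 0 ≤ c * (1 - c) * n := mul_nonneg (mul_nonneg hc0 (by linarith)) hnR.le
      have t3 : 0 ≤ c ^ 2 * n := by positivity
      refine abs_le.2 ⟨by nlinarith, by nlinarith⟩
    have e3 : (((x r : ℤ) : ℝ) * (x r' : ℤ)) - n * (s r * s r') =
        (s r * s r') * ((|((x r : ℤ) : ℝ)| * |((x r' : ℤ) : ℝ)|) - n) := by
      linear_combination ((x r' : ℤ) : ℝ) * hsx r + ((s r : ℝ) * |((x r : ℤ) : ℝ)|) * hsx r'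
    rw [e3, abs_mul]
    have e4 : |((s r : ℝ) * s r')| = 1 := by
      rcases hs1 r with h0 | h0 <;> rcases hs1 r' with h0' | h0' <;> rw [h0, h0'] <;> simp
    rw [e4, one_mul]
    exact hab
  set S : ℤ := ∑ r ∈ range q, s (r + 1) * s r + e * (s 0 * s q) with hS
  have hdiff : |((∑ r ∈ range q, x (r + 1) * x r + e * (x 0 * x q) : ℤ) : ℝ) - n * (S : ℝ)| ≤
      ((q + 1 : ℕ) : ℝ) * (3 * c * n) := by
    have e1 : ((∑ r ∈ range q, x (r + 1) * x r + e * (x 0 * x q) : ℤ) : ℝ) - n * (S : ℝ) =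
        ∑ r ∈ range q, ((((x (r + 1) : ℤ) : ℝ) * (x r : ℤ)) - n * (s (r + 1) * s r)) +
          (e : ℝ) * ((((x 0 : ℤ) : ℝ) * (x q : ℤ)) - n * (s 0 * s q)) := by
      rw [sum_sub_distrib, ← mul_sum, hS]
      push_cast
      ring
    rw [e1]
    have e2 : |(e : ℝ)| = 1 := by rcases he with h0 | h0 <;> rw [h0] <;> simp
    have e3 : |(e : ℝ) * ((((x 0 : ℤ) : ℝ) * (x q : ℤ)) - n * (s 0 * s q))| ≤ 3 * c * n := by
      rw [abs_mul, e2, one_mul]
      exact hpair 0 (by omega) q (by omega)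
    have e4 : |∑ r ∈ range q, ((((x (r + 1) : ℤ) : ℝ) * (x r : ℤ)) - n * (s (r + 1) * s r))| ≤
        q * (3 * c * n) := by
      refine (abs_sum_le_sum_abs _ _).trans ?_
      calc ∑ r ∈ range q, |((((x (r + 1) : ℤ) : ℝ) * (x r : ℤ)) - n * (s (r + 1) * s r))|
          ≤ ∑ _r ∈ range q, 3 * c * n := by
            refine sum_le_sum fun r hr => ?_
            have hr' := mem_range.1 hr
            exact hpair (r + 1) (by omega) r (by omega)
        _ = _ := by simp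
    refine (abs_add_le _ _).trans ?_
    push_cast
    linarith
  have hSn : n * |(S : ℝ)| ≤ n * (6 * ((q + 1 : ℕ) : ℝ) * c) := by
    have e1 := abs_sub_abs_le_abs_sub (n * (S : ℝ))
      ((∑ r ∈ range q, x (r + 1) * x r + e * (x 0 * x q) : ℤ) : ℝ)
    rw [abs_sub_comm, abs_mul, abs_of_pos hnR] at e1
    linarith
  have hS1 : |(S : ℝ)| < 1 := lt_of_le_of_lt (le_of_mul_le_mul_left hSn hnR) hsmall
  have hS0 : S = 0 := by
    have : |S| < 1 := by exact_mod_cast hS1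
    exact Int.abs_lt_one_iff.1 this
  set p : ℕ → ℤ := fun r => if r < q then s (r + 1) * s r else e * (s 0 * s q) with hp
  have hp1 : ∀ r < q + 1, p r = 1 ∨ p r = -1 := by
    intro r _
    simp only [hp]
    split_ifs
    · rcases hs1 (r + 1) with h0 | h0 <;> rcases hs1 r with h0' | h0' <;> rw [h0, h0'] <;> simp
    · rcases he with h9 | h9 <;> rcases hs1 0 with h0 | h0 <;> rcases hs1 q with h0' | h0' <;>
        rw [h9, h0, h0'] <;> simp
  obtain ⟨⟨t, ht⟩, -⟩ := parity p (q + 1) hp1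
  have hpq : p q = e * (s 0 * s q) := by simp only [hp]; rw [if_neg (lt_irrefl q)]
  have hsum : ∑ r ∈ range (q + 1), p r = S := by
    rw [sum_range_succ, hpq, hS]
    congr 1
    refine sum_congr rfl fun r hr => ?_
    simp only [hp]; rw [if_pos (mem_range.1 hr)]
  have hprod : ∏ r ∈ range (q + 1), p r = e := by
    rw [prod_range_succ, hpq]
    have : ∏ r ∈ range q, p r = ∏ r ∈ range q, (s (r + 1) * s r) := by
      refine prod_congr rfl fun r hr => ?_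
      simp only [hp]; rw [if_pos (mem_range.1 hr)]
    rw [this, tele s hs1 q]
    rcases hs1 0 with h0 | h0 <;> rcases hs1 q with h0' | h0' <;> rw [h0, h0'] <;> ring
  rw [hsum, hprod, hS0] at ht
  push_cast at ht
  exact ⟨t, by linarith⟩

/-- a flat polynomial is not an interleaving of flat polynomials -/
theorem inter {c : ℝ} (hc0 : 0 ≤ c) (hc1 : c ≤ 1) (a : ℕ → ℤ) (m n : ℕ) (hm : 2 ≤ m) (hn : 0 < n)
    (h : Flat c a (m * n)) (h1 : ∀ r < m, Flat c (fun k => a (r + m * k)) n) :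
    1 ≤ 6 * m * c := by
  by_contra hcon
  have hcon' : 6 * (m : ℝ) * c < 1 := not_le.1 hcon
  obtain ⟨q, rfl⟩ : ∃ q, m = q + 1 := ⟨m - 1, by omega⟩
  obtain ⟨t1, ht1⟩ := signs hc0 hc1 a q n (by omega) hn h h1 1 (Or.inl rfl) 1 (by simp) (by simp)
    hcon'
  have hexp : (exp (Real.pi * I / ((q + 1 : ℕ) : ℂ))) ^ (q + 1) = ((-1 : ℤ) : ℂ) := by
    rw [← Complex.exp_nat_mul, mul_div_cancel₀ _ (Nat.cast_ne_zero.2 (by omega)), Complex.exp_pi_mul_I]
    simp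
  have hexn : ‖exp (Real.pi * I / ((q + 1 : ℕ) : ℂ))‖ = 1 := by
    have : Real.pi * I / ((q + 1 : ℕ) : ℂ) = ((Real.pi / ((q + 1 : ℕ) : ℝ) : ℝ) : ℂ) * I := by
      push_cast; ring
    rw [this]
    exact Complex.norm_exp_ofReal_mul_I _
  obtain ⟨t2, ht2⟩ := signs hc0 hc1 a q n (by omega) hn h h1 (-1) (Or.inr rfl) _ hexn hexp hcon'
  omega

end Vale.Agent.P110.Unions
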