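import Mathlib

/-! P110: values of a polynomial and flatness on the circle. -/

namespace Vale.Agent.P110.Unions

open Finset Complex

/-- the polynomial with coefficients `a 0, ..., a (N-1)`, at the point `z` -/
noncomputable def lw (a : ℕ → ℤ) (N : ℕ) (z : ℂ) : ℂ := ∑ k ∈ range N, (a k : ℂ) * z ^ k

/-- all values on the unit circle have modulus between `(1-c) √N` and `(1+c) √N` -/
def Flat (c : ℝ) (a : ℕ → ℤ) (N : ℕ) : Prop :=
  ∀ z : ℂ, ‖z‖ = 1 → (1 - c) * Real.sqrt N ≤ ‖lw a N z‖ ∧ ‖lw a N z‖ ≤ (1 + c) * Real.sqrt N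

end Vale.Agent.P110.Unions
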